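import Vale.Agent.P227.LpN.Spec

/-!
# P227 `LpN` cells: combinatorics of slab bodies

Independence of sides from different slabs, circuits, boundedness, persistence of tight patterns,
and the lifting of the coordinates of a facet.
-/

namespace Vale.Agent.P227.LpN.Cells

open MeasureTheory Set Filter Finset Matrix
open scoped Topology

variable {n N : ℕ} {u : Fin N → Vec n} {b : Sd N → ℝ} {x : Vec n}

theorem sgn_mul_self (s : Bool) : sgn s * sgn s = 1 := by cases s <;> simp [sgn]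

theorem sgn_not (s : Bool) : sgn (!s) = -sgn s := by cases s <;> simp [sgn]

theorem dot_nrm (u : Fin N → Vec n) (x : Vec n) (σ : Sd N) :
    x ⬝ᵥ nrm u σ = sgn σ.2 * (x ⬝ᵥ u σ.1) := by
  simp [nrm, dotProduct_smul]

theorem emb_superset (hu : GenPos u) {I : Finset (Fin N)} (h : I.card ≤ n) :
    ∃ e : Fin n ↪ Fin N, ∀ i ∈ I, ∃ k, e k = i := by
  obtain ⟨J, hIJ, -, hJ⟩ := Finset.exists_subsuperset_card_eq (Finset.subset_univ I) h
    (by simpa using hu.1.le)
  refine ⟨(J.orderEmbOfFin hJ).toEmbedding, fun i hi => ?_⟩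
  have := Finset.range_orderEmbOfFin J hJ
  exact (Set.ext_iff.1 this i).2 (Finset.mem_coe.2 (hIJ hi))

theorem dot_injective (hu : GenPos u) (e : Fin n ↪ Fin N) :
    Function.Injective (Matrix.mulVecLin (Matrix.of fun k => u (e k))) := by
  have hli : LinearIndependent ℝ (Matrix.of fun k => u (e k)).row := hu.2 e
  exact Matrix.mulVec_injective_iff_isUnit.2 (Matrix.linearIndependent_rows_iff_isUnit.1 hli)

theorem exists_dot (hu : GenPos u) (e : Fin n ↪ Fin N) (c : Fin n → ℝ) :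
    ∃ d : Vec n, ∀ k, d ⬝ᵥ u (e k) = c k := by
  obtain ⟨d, hd⟩ := LinearMap.surjective_of_injective (dot_injective hu e) c
  exact ⟨d, fun k => by rw [dotProduct_comm]; exact congrFun hd k⟩

/-- A set of at most `n` sides from different slabs admits any values. -/
theorem exists_solve (hu : GenPos u) {T : Finset (Sd N)} (hinj : Set.InjOn Prod.fst (T : Set (Sd N)))
    (hT : T.card ≤ n) (c : Sd N → ℝ) : ∃ d : Vec n, ∀ σ ∈ T, d ⬝ᵥ nrm u σ = c σ := by
  classical
  obtain ⟨e, he⟩ := emb_superset hu (I := T.image Prod.fst) (Finset.card_image_le.trans hT)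
  obtain ⟨d, hd⟩ := exists_dot hu e
    (fun k => ∑ σ ∈ T with σ.1 = e k, sgn σ.2 * c σ)
  refine ⟨d, fun σ hσ => ?_⟩
  obtain ⟨k, hk⟩ := he σ.1 (Finset.mem_image_of_mem _ hσ)
  rw [dot_nrm, ← hk, hd k, Finset.sum_eq_single σ]
  · rw [← mul_assoc, sgn_mul_self, one_mul]
  · intro τ hτ hne
    simp only [Finset.mem_filter] at hτ
    exact absurd (hinj (Finset.mem_coe.2 hτ.1) (Finset.mem_coe.2 hσ) (hτ.2.trans hk)) hne
  · intro h; exact absurd (Finset.mem_filter.2 ⟨hσ, hk.symm⟩) h

/-- At most `n` sides from different slabs are independent. -/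
theorem coeff_zero (hu : GenPos u) {T : Finset (Sd N)} (hinj : Set.InjOn Prod.fst (T : Set (Sd N)))
    (hT : T.card ≤ n) (g : Sd N → ℝ) (h : ∑ σ ∈ T, g σ • nrm u σ = 0) : ∀ σ ∈ T, g σ = 0 := by
  classical
  intro σ hσ
  obtain ⟨d, hd⟩ := exists_solve hu hinj hT (fun τ => if τ = σ then 1 else 0)
  have e := congrArg (d ⬝ᵥ ·) h
  simp only [dotProduct_sum, dotProduct_smul, smul_eq_mul, dotProduct_zero] at e
  rwa [Finset.sum_congr rfl (fun τ hτ => by rw [hd τ hτ]), Finset.sum_eq_single σ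
    (fun τ _ hne => by simp [hne]) (fun h => absurd hσ h), if_pos rfl, mul_one] at e

theorem body_bdd (hu : GenPos u) :
    ∃ C : ℝ, 0 ≤ C ∧ ∀ b x, x ∈ body u b → ‖x‖ ≤ C * ‖b‖ := by
  obtain ⟨e, -⟩ := emb_superset hu (I := ∅) (by simp)
  obtain ⟨K, -, hK⟩ := LinearMap.exists_antilipschitzWith _
    (LinearMap.ker_eq_bot.2 (dot_injective hu e))
  refine ⟨K, K.2, fun b x hx => ?_⟩
  have h1 := hK.le_mul_dist x 0
  rw [dist_zero_right, map_zero, dist_zero_right] at h1
  refine h1.trans (mul_le_mul_of_nonneg_left ((pi_norm_le_iff_of_nonneg (norm_nonneg b)).2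
    fun k => ?_) K.2)
  have ht := hx (e k, true)
  have hf := hx (e k, false)
  simp only [nrm, sgn, if_true, Bool.false_eq_true, if_false, one_smul, neg_smul, dotProduct_neg]
    at ht hf
  have nt := (Real.le_norm_self (b (e k, true))).trans (norm_le_pi_norm b _)
  have nf := (Real.le_norm_self (b (e k, false))).trans (norm_le_pi_norm b _)
  change ‖u (e k) ⬝ᵥ x‖ ≤ _
  rw [Real.norm_eq_abs, abs_le, dotProduct_comm]
  constructor <;> linarith

theorem isClosed_body (u : Fin N → Vec n) (b : Sd N → ℝ) : IsClosed (body u b) := by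
  simp only [body, Set.ofPred_forall]
  exact isClosed_iInter fun σ => isClosed_le (continuous_id.dotProduct continuous_const)
    continuous_const

theorem isCompact_body (hu : GenPos u) (b : Sd N → ℝ) : IsCompact (body u b) := by
  obtain ⟨C, -, hC⟩ := body_bdd hu
  exact Metric.isCompact_of_isClosed_isBounded (isClosed_body u b)
    ((Metric.isBounded_closedBall (x := (0 : Vec n)) (r := C * ‖b‖)).subset fun x hx => by
      simpa using hC b x hx)

theorem mem_tight {σ : Sd N} : σ ∈ tight u b x ↔ x ⬝ᵥ nrm u σ = b σ := by simp [tight]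

theorem tight_injOn (hb : Width b) : Set.InjOn Prod.fst (tight u b x : Set (Sd N)) := by
  rintro ⟨i, s⟩ hs ⟨j, s'⟩ hs' (rfl : i = j)
  by_contra hne
  have hs2 : s' = !s := by cases s <;> cases s' <;> simp_all
  subst hs2
  rw [Finset.mem_coe, mem_tight, dot_nrm] at hs hs'
  simp only [sgn_not, neg_mul] at hs hs'
  have := hb i
  cases s <;> simp only [Bool.not_true, Bool.not_false] at hs' <;> linarith

theorem eventually_width (hb : Width b) : ∀ᶠ y in 𝓝 b, Width y := by
  refine eventually_all.2 fun i => ?_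
  exact (Continuous.tendsto (by fun_prop) b).eventually_const_lt (hb i)

/-- Tight patterns do not appear suddenly. -/
theorem eventually_pattern (hu : GenPos u) (b : Sd N → ℝ) :
    ∀ᶠ y in 𝓝 b, ∀ x ∈ body u y, ∀ S : Finset (Sd N), S ⊆ tight u y x →
      ∃ x' ∈ body u b, S ⊆ tight u b x' := by
  obtain ⟨C, hC0, hC⟩ := body_bdd hu
  have key : ∀ S : Finset (Sd N), (¬∃ x' ∈ body u b, S ⊆ tight u b x') →
      ∀ᶠ y in 𝓝 b, ∀ x ∈ Metric.closedBall (0 : Vec n) (C * (‖b‖ + 1)),
        ¬(x ∈ body u y ∧ S ⊆ tight u y x) := by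
    intro S hS
    refine (isCompact_closedBall _ _).eventually_forall_of_forall_eventually fun x _ => ?_
    have hcl : IsClosed {p : (Sd N → ℝ) × Vec n | p.2 ∈ body u p.1 ∧ S ⊆ tight u p.1 p.2} := by
      have c : ∀ σ, Continuous fun p : (Sd N → ℝ) × Vec n => p.2 ⬝ᵥ nrm u σ := fun σ =>
        continuous_snd.dotProduct continuous_const
      have e : {p : (Sd N → ℝ) × Vec n | p.2 ∈ body u p.1 ∧ S ⊆ tight u p.1 p.2} =
          (⋂ σ, {p | p.2 ⬝ᵥ nrm u σ ≤ p.1 σ}) ∩ ⋂ σ ∈ S, {p | p.2 ⬝ᵥ nrm u σ = p.1 σ} := by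
        ext p; simp [body, Finset.subset_iff, mem_tight]
      rw [e]
      exact (isClosed_iInter fun σ => isClosed_le (c σ) (by fun_prop)).inter
        (isClosed_biInter fun σ _ => isClosed_eq (c σ) (by fun_prop))
    exact hcl.isOpen_compl.mem_nhds fun h => hS ⟨x, h⟩
  have hn : ∀ᶠ y in 𝓝 b, ‖y‖ ≤ ‖b‖ + 1 :=
    (continuous_norm.tendsto b).eventually_le_const (lt_add_one _)
  have hall : ∀ᶠ y in 𝓝 b, ∀ S : Finset (Sd N), (¬∃ x' ∈ body u b, S ⊆ tight u b x') →
      ∀ x ∈ Metric.closedBall (0 : Vec n) (C * (‖b‖ + 1)),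
        ¬(x ∈ body u y ∧ S ⊆ tight u y x) :=
    eventually_all.2 fun S => eventually_imp_distrib_left.2 (key S)
  filter_upwards [hn, hall] with y h1 h2 x hx S hS
  by_contra hne
  refine h2 S hne x ?_ ⟨hx, hS⟩
  simpa using (hC y x hx).trans (mul_le_mul_of_nonneg_left h1 hC0)

theorem mem_supp {lam : Sd N → ℝ} {σ : Sd N} : σ ∈ supp lam ↔ lam σ ≠ 0 := by simp [supp]

theorem mem_posSet {lam : Sd N → ℝ} {σ : Sd N} : σ ∈ posSet lam ↔ 0 < lam σ := by simp [posSet]

/-- A relation among the normals kills every point. -/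
theorem sum_dot (u : Fin N → Vec n) {lam : Sd N → ℝ} (h : ∑ σ, lam σ • nrm u σ = 0) (x : Vec n) :
    ∑ σ, lam σ * (x ⬝ᵥ nrm u σ) = 0 := by
  simpa [dotProduct_sum, dotProduct_smul] using congrArg (x ⬝ᵥ ·) h

theorem circuit_exists (hu : GenPos u) {S : Finset (Sd N)} (hS : S.card = n + 1)
    (hinj : Set.InjOn Prod.fst (S : Set (Sd N))) : ∃ lam, Circuit u lam ∧ supp lam = S := by
  classical
  have h : ¬LinearIndependent ℝ (fun σ : S => nrm u σ.1) := fun h => by
    have := h.fintype_card_le_finrank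
    simp at this
    omega
  obtain ⟨g, hg, ⟨σ₀, hσ₀⟩, hne⟩ := Fintype.not_linearIndependent_iff.1 h
  let lam : Sd N → ℝ := fun σ => if hσ : σ ∈ S then g ⟨σ, hσ⟩ else 0
  have hsum : ∑ σ ∈ S, lam σ • nrm u σ = 0 := by
    rw [← Finset.sum_coe_sort S]
    simpa [lam] using hg
  have hall : ∀ σ ∈ S, lam σ ≠ 0 := by
    intro σ hσ h0
    have hs : ∑ τ ∈ S.erase σ, lam τ • nrm u τ = 0 := by
      rw [Finset.sum_erase _ (by simp [h0])]; exact hsum
    have := coeff_zero hu (hinj.mono (by simp)) (by rw [Finset.card_erase_of_mem hσ, hS]; simp)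
      lam hs
    rcases eq_or_ne σ₀ σ with rfl | hne'
    · exact hne (by simpa [lam, hσ₀] using h0)
    · exact hne (by simpa [lam, hσ₀] using this σ₀ (Finset.mem_erase.2 ⟨hne', hσ₀⟩))
  have hsupp : supp lam = S := by
    ext σ; rw [mem_supp]; by_cases hσ : σ ∈ S
    · simp [hσ, hall σ hσ]
    · simp [hσ, lam]
  refine ⟨lam, ⟨by rw [hsupp, hS], by rw [hsupp]; exact hinj, ?_⟩, hsupp⟩
  rw [← hsum]
  exact (Finset.sum_subset (Finset.subset_univ S) fun σ _ hσ => by simp [lam, hσ]).symm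

theorem Lam_eq_zero {lam : Sd N → ℝ} (hc : Circuit u lam) (h : supp lam ⊆ tight u b x) :
    Lam lam b = 0 := by
  rw [← sum_dot u hc.2.2 x]
  refine Finset.sum_congr rfl fun σ _ => ?_
  by_cases hσ : lam σ = 0
  · simp [hσ]
  · rw [mem_tight.1 (h (mem_supp.2 hσ))]

theorem continuous_Lam (lam : Sd N → ℝ) : Continuous (Lam lam) := by
  unfold Lam; fun_prop

/-! ## Facets -/

section facets

variable {M : ℕ} {v : Fin (M + 1) → Vec (n + 1)}

/-- The side of the body given by a side of the facet. -/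
def emb (l : Fin (M + 1)) (τ : Sd M) : Sd (M + 1) := (l.succAbove τ.1, τ.2)

theorem emb_injective (l : Fin (M + 1)) : Function.Injective (emb l) := fun a c h => by
  simp only [emb, Prod.ext_iff] at h
  exact Prod.ext (Fin.succAbove_right_injective h.1) h.2

theorem side_cases (σ τ : Sd (M + 1)) :
    τ = σ ∨ τ = (σ.1, !σ.2) ∨ ∃ τ', τ = emb σ.1 τ' := by
  rcases eq_or_ne τ.1 σ.1 with h | h
  · obtain ⟨i, s⟩ := τ
    obtain ⟨j, s'⟩ := σ
    simp only at h; subst h
    cases s <;> cases s' <;> simp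
  · obtain ⟨i, hi⟩ := Fin.exists_succAbove_eq h
    exact Or.inr (Or.inr ⟨(i, τ.2), Prod.ext hi.symm rfl⟩)

theorem pivot_ne (hv : GenPos v) (l : Fin (M + 1)) : v l (pivot (v l)) ≠ 0 := by
  obtain ⟨e, he⟩ := emb_superset hv (I := {l}) (by simp)
  obtain ⟨k, hk⟩ := he l (Finset.mem_singleton_self l)
  have h : ∃ j, v l j ≠ 0 := by
    by_contra h
    push Not at h
    exact (hv.2 e).ne_zero k (by rw [hk]; exact funext h)
  rw [pivot, dif_pos h]
  exact h.choose_spec

/-- The point of the hyperplane `x ⬝ᵥ v l = t` with the given coordinates. -/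
noncomputable def lift (v : Fin (M + 1) → Vec (n + 1)) (l : Fin (M + 1)) (t : ℝ) (z : Vec n) :
    Vec (n + 1) :=
  (pivot (v l)).insertNth
    ((t - ∑ k, z k * v l ((pivot (v l)).succAbove k)) / v l (pivot (v l))) z

theorem lift_dot_self (hv : GenPos v) (l : Fin (M + 1)) (t : ℝ) (z : Vec n) :
    lift v l t z ⬝ᵥ v l = t := by
  rw [dotProduct, Fin.sum_univ_succAbove _ (pivot (v l))]
  simp only [lift, Fin.insertNth_apply_same, Fin.insertNth_apply_succAbove]
  rw [div_mul_cancel₀ _ (pivot_ne hv l)]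
  ring

theorem lift_dot (hv : GenPos v) (l : Fin (M + 1)) (t : ℝ) (z : Vec n) (i : Fin M) :
    lift v l t z ⬝ᵥ v (l.succAbove i)
      = z ⬝ᵥ fNormals v l i + fCoef v l (l.succAbove i) * t := by
  rw [dotProduct, Fin.sum_univ_succAbove _ (pivot (v l)), dotProduct]
  simp only [lift, fNormals, fCoef, Fin.insertNth_apply_same, Fin.insertNth_apply_succAbove,
    mul_sub, Finset.sum_sub_distrib]
  have : ∀ k, z k * (v (l.succAbove i) (pivot (v l)) / v l (pivot (v l))
      * v l ((pivot (v l)).succAbove k)) = v (l.succAbove i) (pivot (v l)) / v l (pivot (v l))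
      * (z k * v l ((pivot (v l)).succAbove k)) := fun k => by ring
  simp only [this, ← Finset.mul_sum]
  ring

variable {σ : Sd (M + 1)} {c : Sd (M + 1) → ℝ} {z : Vec n}

/-- The lift of a point of the facet `σ`. -/
noncomputable def liftF (v : Fin (M + 1) → Vec (n + 1)) (σ : Sd (M + 1)) (c : Sd (M + 1) → ℝ)
    (z : Vec n) : Vec (n + 1) := lift v σ.1 (sgn σ.2 * c σ) z

theorem liftF_self (hv : GenPos v) : liftF v σ c z ⬝ᵥ nrm v σ = c σ := by
  rw [dot_nrm, liftF, lift_dot_self hv, ← mul_assoc, sgn_mul_self, one_mul]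

theorem liftF_opp (hv : GenPos v) : liftF v σ c z ⬝ᵥ nrm v (σ.1, !σ.2) = -c σ := by
  rw [dot_nrm, liftF, lift_dot_self hv, sgn_not, neg_mul, ← mul_assoc, sgn_mul_self, one_mul]

theorem liftF_emb (hv : GenPos v) (τ : Sd M) :
    c (emb σ.1 τ) - liftF v σ c z ⬝ᵥ nrm v (emb σ.1 τ)
      = fMap v σ c τ - z ⬝ᵥ nrm (fNormals v σ.1) τ := by
  rw [dot_nrm, dot_nrm, liftF]
  simp only [emb, lift_dot hv, fMap, LinearMap.coe_mk, AddHom.coe_mk]
  ring

theorem opp_lt (hc : Width c) (σ : Sd (M + 1)) : -c σ < c (σ.1, !σ.2) := by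
  obtain ⟨i, s⟩ := σ
  have := hc i
  cases s <;> simp only [Bool.not_true, Bool.not_false] <;> linarith

theorem width_fMap (hc : Width c) : Width (fMap v σ c) := fun i => by
  have := hc (σ.1.succAbove i)
  simp only [fMap, LinearMap.coe_mk, AddHom.coe_mk, sgn, if_true, Bool.false_eq_true, if_false]
  linarith

theorem liftF_mem (hv : GenPos v) (hc : Width c) (hz : z ∈ body (fNormals v σ.1) (fMap v σ c)) :
    liftF v σ c z ∈ body v c := by
  intro τ
  rcases side_cases σ τ with rfl | rfl | ⟨τ', rfl⟩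
  · exact (liftF_self hv).le
  · rw [liftF_opp hv]; exact (opp_lt hc σ).le
  · have := hz τ'; have := liftF_emb (σ := σ) (c := c) (z := z) hv τ'; linarith

theorem tight_liftF (hv : GenPos v) (hc : Width c) :
    tight v c (liftF v σ c z) =
      insert σ ((tight (fNormals v σ.1) (fMap v σ c) z).map ⟨emb σ.1, emb_injective _⟩) := by
  ext τ
  rw [mem_tight, Finset.mem_insert, Finset.mem_map]
  rcases side_cases σ τ with rfl | rfl | ⟨τ', rfl⟩
  · simp [liftF_self hv]
  · rw [liftF_opp hv]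
    refine iff_of_false (opp_lt hc σ).ne ?_
    rintro (h | ⟨a, -, ha⟩)
    · have := congrArg Prod.snd h; simp at this
    · exact Fin.succAbove_ne σ.1 a.1 (congrArg Prod.fst ha)
  · have e := liftF_emb (σ := σ) (c := c) (z := z) hv τ'
    simp only [Function.Embedding.coeFn_mk, mem_tight]
    constructor
    · intro h; exact Or.inr ⟨τ', by linarith, rfl⟩
    · rintro (h | ⟨a, ha, hh⟩)
      · exact absurd (congrArg Prod.fst h) (Fin.succAbove_ne _ _)
      · obtain rfl := emb_injective _ hh; linarith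

theorem card_tight_liftF (hv : GenPos v) (hc : Width c) :
    (tight v c (liftF v σ c z)).card = (tight (fNormals v σ.1) (fMap v σ c) z).card + 1 := by
  rw [tight_liftF hv hc, Finset.card_insert_of_notMem, Finset.card_map]
  rw [Finset.mem_map]
  rintro ⟨a, -, ha⟩
  exact Fin.succAbove_ne σ.1 a.1 (congrArg Prod.fst ha)

end facets

end Vale.Agent.P227.LpN.Cells
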