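import Vale.Agent.P227.LpN.Cells.Wall

/-!
# P227 `LpN` cells: the jump of the volume across a wall, and what vanishes on its sides
-/

namespace Vale.Agent.P227.LpN.Cells

open PolyCalc MeasureTheory Set Filter Finset Matrix MvPolynomial
open scoped Topology

variable {n N : ℕ} {u : Fin N → Vec n} {b lam : Sd N → ℝ}

theorem simple_hasInt (hu : GenPos u) (hb : Simple u b) (hne : (body u b).Nonempty) :
    HasInt u b := by
  obtain ⟨x, hx⟩ := hne
  obtain ⟨d, hd⟩ := exists_solve hu (tight_injOn hb.1 (x := x)) (hb.2 x hx) (fun _ => -1)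
  have h : ∀ σ, ∀ᶠ ε : ℝ in 𝓝[>] 0, (x + ε • d) ⬝ᵥ nrm u σ < b σ := by
    intro σ
    simp only [add_dotProduct, smul_dotProduct, smul_eq_mul]
    by_cases hσ : σ ∈ tight u b x
    · filter_upwards [self_mem_nhdsWithin] with ε hε
      have : (0 : ℝ) < ε := hε
      rw [hd σ hσ, mem_tight.1 hσ]
      linarith
    · exact ((Continuous.tendsto (by fun_prop) 0).eventually_lt_const
        (by simpa using (hx σ).lt_of_ne fun e => hσ (mem_tight.2 e))).filter_mono nhdsWithin_le_nhds
  obtain ⟨ε, hε⟩ := (eventually_all.2 h).exists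
  exact ⟨_, hε⟩

theorem wall_hasInt (hu : GenPos u) (hw : Wall u b lam) (hp : (posSet lam).Nonempty)
    (hm : (posSet (-lam)).Nonempty) : HasInt u b := by
  classical
  obtain ⟨-, hc, ⟨x, hx, hxt⟩, -⟩ := hw
  obtain ⟨p, hp⟩ := hp
  obtain ⟨m, hm⟩ := hm
  rw [mem_posSet] at hp
  rw [mem_posSet, Pi.neg_apply, neg_pos] at hm
  have hpS : p ∈ supp lam := mem_supp.2 hp.ne'
  have hne : m ≠ p := fun h => by subst h; linarith
  have hmS : m ∈ (supp lam).erase p := Finset.mem_erase.2 ⟨hne, mem_supp.2 hm.ne⟩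
  obtain ⟨K, hK1, hK⟩ : ∃ K : ℝ, 1 ≤ K ∧
      (∑ τ ∈ ((supp lam).erase p).erase m, |lam τ|) < K * (-lam m) := by
    refine ⟨(∑ τ ∈ ((supp lam).erase p).erase m, |lam τ|) / (-lam m) + 1, ?_, ?_⟩
    · have := div_nonneg (Finset.sum_nonneg fun τ (_ : τ ∈ ((supp lam).erase p).erase m) =>
        abs_nonneg (lam τ)) (by linarith : 0 ≤ -lam m)
      linarith
    · rw [add_mul, div_mul_cancel₀ _ (by linarith), one_mul]; linarith
  obtain ⟨d, hd⟩ := exists_solve hu (hc.2.1.mono (Finset.coe_subset.2 (Finset.erase_subset p _)))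
    (by rw [Finset.card_erase_of_mem hpS, hc.1]; simp) (fun τ => if τ = m then -K else -1)
  have hdp : d ⬝ᵥ nrm u p < 0 := by
    have h0 := sum_dot u hc.2.2 d
    rw [← Finset.sum_subset (Finset.subset_univ (supp lam)) (fun τ _ hτ => by
      rw [mem_supp, not_not] at hτ; rw [hτ, zero_mul]), ← Finset.add_sum_erase _ _ hpS,
      ← Finset.add_sum_erase _ _ hmS, hd m hmS, if_pos rfl] at h0
    have h1 : ∑ τ ∈ ((supp lam).erase p).erase m, lam τ * (d ⬝ᵥ nrm u τ)
        ≥ -∑ τ ∈ ((supp lam).erase p).erase m, |lam τ| := by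
      rw [ge_iff_le, ← Finset.sum_neg_distrib]
      refine Finset.sum_le_sum fun τ hτ => ?_
      rw [hd τ (Finset.mem_of_mem_erase hτ), if_neg (Finset.ne_of_mem_erase hτ)]
      have := le_abs_self (lam τ)
      linarith
    exact neg_of_mul_neg_right (by linarith) hp.le
  have h : ∀ σ, ∀ᶠ ε : ℝ in 𝓝[>] 0, (x + ε • d) ⬝ᵥ nrm u σ < b σ := by
    intro σ
    simp only [add_dotProduct, smul_dotProduct, smul_eq_mul]
    by_cases hσ : σ ∈ tight u b x
    · filter_upwards [self_mem_nhdsWithin] with ε hε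
      have hd0 : d ⬝ᵥ nrm u σ < 0 := by
        rw [hxt] at hσ
        rcases eq_or_ne σ p with rfl | hσp
        · exact hdp
        · rw [hd σ (Finset.mem_erase.2 ⟨hσp, hσ⟩)]; split_ifs <;> linarith
      have := mul_neg_of_pos_of_neg (show (0 : ℝ) < ε from hε) hd0
      rw [mem_tight.1 hσ]
      linarith
    · exact ((Continuous.tendsto (by fun_prop) 0).eventually_lt_const
        (by simpa using (hx σ).lt_of_ne fun e => hσ (mem_tight.2 e))).filter_mono nhdsWithin_le_nhds
  obtain ⟨ε, hε⟩ := (eventually_all.2 h).exists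
  exact ⟨_, hε⟩

theorem eventually_empty (hu : GenPos u) (he : body u b = ∅) :
    ∀ᶠ y in 𝓝 b, body u y = ∅ := by
  filter_upwards [eventually_pattern hu b] with y hy
  refine Set.eq_empty_of_forall_notMem fun x hx => ?_
  obtain ⟨x', hx', -⟩ := hy x hx _ subset_rfl
  rw [he] at hx'; exact hx'

theorem exists_empty (hn : 1 ≤ n) (hu : GenPos u) : ∃ a, Simple u a ∧ body u a = ∅ := by
  classical
  obtain ⟨M, rfl⟩ := exists_succ hu
  let J : Finset (Fin (M + 1)) := Finset.univ.erase 0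
  obtain ⟨I, hI, hIc⟩ := Finset.exists_subset_card_eq (show n ≤ J.card by
    simp [J]; have := hu.1; omega)
  let e : Fin n ↪ Fin (M + 1) := (I.orderEmbOfFin hIc).toEmbedding
  have he : ∀ k, e k ≠ 0 := fun k =>
    (Finset.mem_erase.1 (hI (Finset.orderEmbOfFin_mem I hIc k))).1
  obtain ⟨K, -, hK⟩ := LinearMap.exists_antilipschitzWith _
    (LinearMap.ker_eq_bot.2 (dot_injective hu e))
  set B : ℝ := ∑ j, |u 0 j| * K + 1 with hB
  let a : Sd (M + 1) → ℝ := fun σ => if σ.1 = 0 then (if σ.2 then B + 1 else -B) else 1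
  have hempty : body u a = ∅ := by
    refine Set.eq_empty_of_forall_notMem fun x hx => ?_
    have h1 := hK.le_mul_dist x 0
    rw [dist_zero_right, map_zero, dist_zero_right] at h1
    have hx1 : ‖x‖ ≤ K := by
      refine h1.trans ((mul_le_mul_of_nonneg_left ((pi_norm_le_iff_of_nonneg zero_le_one).2
        fun k => ?_) K.2).trans (mul_one _).le)
      have ht := hx (e k, true)
      have hf := hx (e k, false)
      simp only [a, he k, if_false, nrm, sgn, if_true, Bool.false_eq_true, one_smul, neg_smul,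
        dotProduct_neg] at ht hf
      change ‖u (e k) ⬝ᵥ x‖ ≤ _
      rw [Real.norm_eq_abs, abs_le, dotProduct_comm]
      constructor <;> linarith
    have h0 := hx (0, false)
    simp only [a, if_true, nrm, sgn, Bool.false_eq_true, if_false, neg_smul, one_smul,
      dotProduct_neg] at h0
    have : x ⬝ᵥ u 0 ≤ ∑ j, |u 0 j| * K := by
      refine Finset.sum_le_sum fun j _ => (le_abs_self _).trans ?_
      rw [abs_mul, mul_comm]
      exact mul_le_mul_of_nonneg_left (((Real.norm_eq_abs _).ge.trans (norm_le_pi_norm x j)).trans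
        hx1) (abs_nonneg _)
    linarith
  refine ⟨a, ⟨fun i => ?_, by simp [hempty]⟩, hempty⟩
  by_cases hi : i = 0 <;> simp [a, hi]

theorem atSide_neg_open (hlam : lam ≠ 0) (h0 : Lam lam b = 0) {p : (Sd N → ℝ) → Prop}
    (h : ∀ᶠ y in 𝓝 b, 0 < Lam (-lam) y → p y) :
    ∃ W : Set (Sd N → ℝ), IsOpen W ∧ W.Nonempty ∧ ∀ y ∈ W, 0 < Lam (-lam) y ∧ p y :=
  side_open (neg_ne_zero.2 hlam) (by rw [Lam_neg, h0, neg_zero]) h

theorem subst_lamPoly {M : ℕ} {v : Fin (M + 1) → Vec (n + 1)} (hv : GenPos v)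
    {mu : Sd (M + 1) → ℝ} (hc : Circuit v mu) {σ : Sd (M + 1)} (hσ : σ ∈ supp mu) :
    subst (fMap v σ) (lamPoly (lamF mu σ)) = lamPoly mu := by
  refine poly_ext_open isOpen_univ Set.univ_nonempty fun y _ => ?_
  rw [ev_subst, ev_lamPoly, ev_lamPoly]
  exact Lam_lamF hv hc hσ y

/-- The derivative of a side polynomial from the polynomial of the facet. -/
theorem side_pderiv (hS : SlabSpec) {k M : ℕ} (hk : 1 ≤ k) {v : Fin (M + 1) → Vec (k + 1)}
    (hv : GenPos v) {c mu : Sd (M + 1) → ℝ} (hw : Wall v c mu) {PA : Poly (Sd (M + 1))}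
    (hA : AtSide v c mu PA) (σ : Sd (M + 1)) {Q : Poly (Sd M)}
    (hQ : ∀ᶠ y in 𝓝 c, 0 < Lam mu y →
      vol (fNormals v σ.1) (fMap v σ y) = ev (fMap v σ y) Q) :
    pderiv σ PA = fJac v σ.1 • subst (fMap v σ) Q := by
  obtain ⟨W, hW, hne, hWp⟩ := side_open (circuit_ne_zero hw.2.1) (wall_Lam hw)
    (p := fun y => Width y ∧ vol v y = ev y PA ∧
      vol (fNormals v σ.1) (fMap v σ y) = ev (fMap v σ y) Q)
    (by filter_upwards [eventually_width hw.1, hA.2, hQ] with y h1 h2 h3 h0
        exact ⟨h1, h2 h0, h3 h0⟩)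
  refine poly_ext_open hW hne fun y hy => ?_
  rw [← area_eq_ev hW (fun z hz => (hWp z hz).2.2.1) hy σ, ev_smul, ev_subst, ← (hWp y hy).2.2.2]
  exact ((hS k M v hk hv).2 y (hWp y hy).2.1).2.1 σ

theorem lam_smul_of_ker {w : Sd N → ℝ} (hlam : lam ≠ 0)
    (h : ∀ d, Lam lam d = 0 → Lam w d = 0) : ∃ c : ℝ, w = c • lam := by
  classical
  refine ⟨Lam w lam / Lam lam lam, funext fun σ => ?_⟩
  have hp := (Lam_self_pos hlam).ne'
  have e1 : ∀ g : Sd N → ℝ, Lam g (Pi.single σ 1) = g σ := fun g => by simp [Lam, Pi.single_apply]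
  have := h (Pi.single σ 1 + (-(lam σ / Lam lam lam)) • lam)
    (by rw [Lam_add_smul, e1]; field_simp; ring)
  rw [Lam_add_smul, e1] at this
  rw [Pi.smul_apply, smul_eq_mul]
  field_simp
  field_simp at this
  linarith

theorem jump_one {u : Fin N → Vec 1} (hu : GenPos u) {PA PB : Poly (Sd N)} (hw : Wall u b lam)
    (hA : AtSide u b lam PA) (hB : AtSide u b (-lam) PB) :
    ∃ c : ℝ, PB = PA + c • lamPoly lam ^ 1 := by
  have hlam := circuit_ne_zero hw.2.1
  have lin : ∀ mu P, Wall u b mu → AtSide u b mu P → ∃ v, P = lamPoly v := by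
    intro mu P hwm hP
    obtain ⟨W, hW, hne, hWp⟩ := side_open (circuit_ne_zero hwm.2.1) (wall_Lam hwm)
      (p := fun y => Simple u y ∧ vol u y = ev y P)
      (by filter_upwards [wall_eventually_simple hu hwm, hP.2] with y h1 h2 h0
          exact ⟨h1 h0.ne', h2 h0⟩)
    obtain ⟨y, hy⟩ := hne
    obtain ⟨v, hv⟩ := local_one hu (hWp y hy).2.1
    obtain ⟨O, hO, hOo, hyO⟩ := eventually_nhds_iff.1 (hv.and (hW.mem_nhds hy))
    refine ⟨v, poly_ext_open hOo ⟨y, hyO⟩ fun z hz => ?_⟩
    rw [← (hWp z (hO z hz).2).2.2, (hO z hz).1, ev_lamPoly]; rfl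
  obtain ⟨vA, rfl⟩ := lin lam PA hw hA
  obtain ⟨vB, rfl⟩ := lin (-lam) PB (wall_neg hw) hB
  have onto : ∀ v mu, mu ≠ 0 → (∀ᶠ y in 𝓝 b, 0 < Lam mu y → vol u y = ev y (lamPoly v)) →
      ∀ᶠ y in 𝓝 b, Lam mu y = 0 → vol u y = Lam v y := by
    intro v mu hmu h
    filter_upwards [eventually_eventually_nhds.2 h] with y hy h0
    have hl : Tendsto (fun ε : ℝ => y + ε • mu) (𝓝[>] 0) (𝓝 y) :=
      ((continuous_const (y := y)).add (continuous_id.smul (continuous_const (y := mu)))).tendsto'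
        (0 : ℝ) y (by simp) |>.mono_left nhdsWithin_le_nhds
    refine tendsto_nhds_unique (((continuous_vol_one hu).tendsto y).comp hl) ?_
    refine ((((continuous_Lam v).tendsto y).comp hl)).congr' ?_
    filter_upwards [hl.eventually hy, self_mem_nhdsWithin] with ε h1 h2
    have := h1 (by rw [Lam_add_smul, h0, zero_add]; exact mul_pos h2 (Lam_self_pos hmu))
    simp only [Function.comp_apply, this, ev_lamPoly]; rfl
  have hev := (onto vA lam hlam hA.2).and (onto vB (-lam) (neg_ne_zero.2 hlam) hB.2)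
  have h0 := wall_Lam hw
  have hb0 : Lam (vB - vA) b = 0 := by
    have := hev.self_of_nhds
    have := (this.2 (by rw [Lam_neg, h0, neg_zero])).symm.trans (this.1 h0)
    simp [Lam, sub_mul] at this ⊢
    linarith
  obtain ⟨c, hc⟩ := lam_smul_of_ker hlam (w := vB - vA) fun d hd => by
    have hl : Tendsto (fun ε : ℝ => b + ε • d) (𝓝[>] 0) (𝓝 b) :=
      ((continuous_const (y := b)).add (continuous_id.smul (continuous_const (y := d)))).tendsto'
        (0 : ℝ) b (by simp) |>.mono_left nhdsWithin_le_nhds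
    obtain ⟨ε, ⟨h1, h2⟩, hε⟩ := ((hl.eventually hev).and self_mem_nhdsWithin).exists
    have hz : Lam lam (b + ε • d) = 0 := by rw [Lam_add_smul, h0, hd]; ring
    have e : Lam (vB - vA) (b + ε • d) = 0 := by
      have := (h2 (by rw [Lam_neg, hz, neg_zero])).symm.trans (h1 hz)
      simp only [Lam, Pi.sub_apply, sub_mul, Finset.sum_sub_distrib] at this ⊢
      linarith
    rw [Lam_add_smul, hb0, zero_add] at e
    exact (mul_eq_zero.1 e).resolve_left (ne_of_gt hε)
  refine ⟨c, poly_ext_open isOpen_univ Set.univ_nonempty fun y _ => ?_⟩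
  simp only [ev_add, ev_smul, pow_one, ev_lamPoly]
  rw [Finset.mul_sum, ← Finset.sum_add_distrib]
  refine Finset.sum_congr rfl fun σ _ => ?_
  have := congrFun hc σ
  simp only [Pi.sub_apply, Pi.smul_apply, smul_eq_mul] at this
  linear_combination (y σ) * this

/-- Across a wall the volume jumps by a multiple of the power of the wall. -/
theorem jump (hS : SlabSpec) (hn : 1 ≤ n) (hu : GenPos u) {PA PB : Poly (Sd N)}
    (hw : Wall u b lam) (hA : AtSide u b lam PA) (hB : AtSide u b (-lam) PB) :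
    ∃ c : ℝ, PB = PA + c • lamPoly lam ^ n := by
  induction n, hn using Nat.le_induction generalizing N with
  | base => exact jump_one hu hw hA hB
  | succ k hk ih =>
    obtain ⟨M, rfl⟩ := exists_succ hu
    have hg := (hS k M u hk hu).1
    have hcirc := hw.2.1
    have hder : ∀ σ, ∃ cσ : ℝ, pderiv σ PB = pderiv σ PA + cσ • lamPoly lam ^ k := by
      intro σ
      by_cases hσ : σ ∈ supp lam
      · have hwF := facet_wall hu hw hσ
        obtain ⟨QA, hQA⟩ := wall_side hS hk (hg σ.1) hwF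
        obtain ⟨QB, hQB⟩ := wall_side hS hk (hg σ.1) (wall_neg hwF)
        obtain ⟨cF, hcF⟩ := ih (hg σ.1) hwF hQA hQB
        have ht := ((fMap u σ).continuous_of_finiteDimensional.tendsto b)
        have eA := side_pderiv hS hk hu hw hA σ (Q := QA) (by
          filter_upwards [ht.eventually hQA.2] with y hy h0
          exact hy (by rw [Lam_lamF hu hcirc hσ]; exact h0))
        have eB := side_pderiv hS hk hu (wall_neg hw) hB σ (Q := QB) (by
          filter_upwards [ht.eventually hQB.2] with y hy h0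
          exact hy (by rw [Lam_neg, Lam_lamF hu hcirc hσ, ← Lam_neg]; exact h0))
        refine ⟨fJac u σ.1 * cF, ?_⟩
        rw [eA, eB, hcF, ← subst_lamPoly hu hcirc hσ]
        simp only [subst, map_add, map_smul, map_pow, smul_add, smul_smul]
      · obtain ⟨Q, hQ⟩ := local_poly hS hk (hg σ.1) (facet_off_wall hu hw hσ)
        have hQ' : ∀ mu : Sd (M + 1) → ℝ, ∀ᶠ y in 𝓝 b, 0 < Lam mu y →
            vol (fNormals u σ.1) (fMap u σ y) = ev (fMap u σ y) Q := fun mu => by
          filter_upwards [((fMap u σ).continuous_of_finiteDimensional.tendsto b).eventually hQ.2]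
            with y hy _ using hy
        refine ⟨0, ?_⟩
        rw [side_pderiv hS hk hu hw hA σ (hQ' _),
          side_pderiv hS hk hu (wall_neg hw) hB σ (hQ' _)]
        simp
    choose cσ hcσ using hder
    have hlam := circuit_ne_zero hcirc
    have hL : ev lam (lamPoly lam) ≠ 0 := by
      rw [ev_lamPoly]; exact (Lam_self_pos hlam).ne'
    have hsym : ∀ σ τ, cσ σ * lam τ = cσ τ * lam σ := by
      intro σ τ
      have hk0 : (k : ℝ) ≠ 0 := by exact_mod_cast (show k ≠ 0 by omega)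
      have h1 := congrArg (pderiv τ) (hcσ σ)
      have h2 := congrArg (pderiv σ) (hcσ τ)
      rw [pderiv_comm' PB τ σ, h2] at h1
      simp only [map_add, Derivation.map_smul, pderiv_pow, pderiv_lamPoly] at h1
      have e := congrArg (ev lam) h1
      simp only [ev_add, ev_smul, ev_mul, ev_pow, ev_C] at e
      rw [pderiv_comm' PA τ σ] at e
      have e' : cσ τ * lam σ = cσ σ * lam τ := by
        refine mul_left_cancel₀ (mul_ne_zero hk0 (pow_ne_zero (k - 1) hL)) ?_
        simp only [ev, map_natCast] at e ⊢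
        linear_combination e
      exact e'.symm
    obtain ⟨τ0, hτ0⟩ := Function.ne_iff.1 hlam
    have hr : ∀ σ, cσ σ = cσ τ0 / lam τ0 * lam σ := fun σ => by
      rw [div_mul_eq_mul_div, eq_div_iff (show lam τ0 ≠ 0 from hτ0)]; exact hsym σ τ0
    refine ⟨cσ τ0 / lam τ0 / (k + 1), ?_⟩
    have hk1 : ((k + 1 : ℕ) : ℝ) ≠ 0 := by exact_mod_cast k.succ_ne_zero
    refine smul_right_injective (Poly (Sd (M + 1))) hk1 ?_
    show ((k + 1 : ℕ) : ℝ) • PB = ((k + 1 : ℕ) : ℝ) • _
    rw [← (hB.1 : ∑ σ, X σ * pderiv σ PB = _), smul_add,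
      ← (hA.1 : ∑ σ, X σ * pderiv σ PA = _), smul_smul, Nat.cast_add, Nat.cast_one,
      mul_div_cancel₀ _ (by positivity)]
    simp only [hcσ, mul_add, Finset.sum_add_distrib]
    congr 1
    rw [pow_succ', lamPoly, Finset.sum_mul, Finset.smul_sum]
    refine Finset.sum_congr rfl fun σ _ => ?_
    rw [hr σ, mul_smul_comm, smul_mul_assoc, smul_smul]

theorem pderiv_zero_of_const {P : Poly (Sd N)} {a : Sd N} {W : Set (Sd N → ℝ)} (hW : IsOpen W)
    (hne : W.Nonempty)
    (h : ∀ y ∈ W, ∀ᶠ s in 𝓝 (y a), ev (Function.update y a s) P = ev y P) : pderiv a P = 0 := by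
  refine poly_ext_open hW hne fun y hy => ?_
  rw [ev_zero]
  exact (ev_update_deriv P y a).unique ((hasDerivAt_const (y a) (ev y P)).congr_of_eventuallyEq
    (h y hy))

theorem kill_zero (hw : Wall u b lam) {PA : Poly (Sd N)} (hA : AtSide u b lam PA)
    (hp : posSet lam = ∅) : PA = 0 := by
  obtain ⟨W, hW, hne, hWp⟩ := side_open (circuit_ne_zero hw.2.1) (wall_Lam hw) hA.2
  refine poly_ext_open hW hne fun y hy => ?_
  obtain ⟨h0, hv⟩ := hWp y hy
  rw [← hv, ev_zero, vol, Set.eq_empty_of_forall_notMem (s := body u y) fun x hx => ?_]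
  · simp
  have := sum_dot u hw.2.1.2.2 x
  have hle : Lam lam y ≤ ∑ σ, lam σ * (x ⬝ᵥ nrm u σ) := Finset.sum_le_sum fun σ _ =>
    mul_le_mul_of_nonpos_left (hx σ) (not_lt.1 fun h => by
      have := mem_posSet.2 h; rw [hp] at this; simp at this)
  linarith

theorem upd_comm (y : Sd N → ℝ) {a a' : Sd N} (h : a ≠ a') (s t : ℝ) :
    Function.update (Function.update y a s) a' t = Function.update (Function.update y a' t) a s :=
  Function.update_comm h _ _ _

theorem kill_one (hu : GenPos u) (hw : Wall u b lam) {PA : Poly (Sd N)} (hA : AtSide u b lam PA)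
    {a : Sd N} (hp : posSet lam = {a}) : pderiv a PA = 0 := by
  obtain ⟨W, hW, hne, hWp⟩ := side_open (circuit_ne_zero hw.2.1) (wall_Lam hw) hA.2
  have ha : 0 < lam a := mem_posSet.1 (by rw [hp]; exact Finset.mem_singleton_self a)
  refine pderiv_zero_of_const hW hne fun y hy => ?_
  have he : ∀ᶠ s in 𝓝 (y a), Function.update y a s ∈ W :=
    (((continuous_const (y := y)).update a continuous_id).tendsto' (y a) y (by simp)).eventually
      (hW.mem_nhds hy)
  filter_upwards [he] with s hs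
  rw [← (hWp _ hs).2, ← (hWp y hy).2]
  have sub : ∀ y z : Sd N → ℝ, 0 < Lam lam z → (∀ σ, σ ≠ a → y σ = z σ) → body u y ⊆ body u z := by
    intro y z hz hyz x hx σ
    rcases eq_or_ne σ a with rfl | hσ
    · by_contra hlt
      rw [not_le] at hlt
      have hle : Lam lam z ≤ ∑ τ, lam τ * (x ⬝ᵥ nrm u τ) := Finset.sum_le_sum fun τ _ => by
        rcases eq_or_ne τ σ with rfl | hτ
        · exact mul_le_mul_of_nonneg_left hlt.le ha.le
        · refine mul_le_mul_of_nonpos_left (hyz τ hτ ▸ hx τ) (not_lt.1 fun h => hτ ?_)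
          simpa [hp] using mem_posSet.2 h
      rw [sum_dot u hw.2.1.2.2 x] at hle
      linarith
    · exact hyz σ hσ ▸ hx σ
  rw [vol, vol, (sub _ y (hWp y hy).1 fun σ hσ => Function.update_of_ne hσ _ _).antisymm
    (sub y _ (hWp _ hs).1 fun σ hσ => (Function.update_of_ne hσ _ _).symm)]

theorem kill_two (hu : GenPos u) (hw : Wall u b lam) {PA : Poly (Sd N)} (hA : AtSide u b lam PA)
    {a a' : Sd N} (hne' : a ≠ a') (hp : posSet lam = {a, a'}) :
    pderiv a (pderiv a' PA) = 0 := by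
  classical
  obtain ⟨W, hW, hne, hWp⟩ := side_open (circuit_ne_zero hw.2.1) (wall_Lam hw) hA.2
  have ha : 0 < lam a := mem_posSet.1 (by rw [hp]; simp)
  have ha' : 0 < lam a' := mem_posSet.1 (by rw [hp]; simp)
  set Y : (Sd N → ℝ) → ℝ → ℝ → Sd N → ℝ := fun y s t =>
    Function.update (Function.update y a s) a' t with hY
  have val : ∀ y s t, Y y s t a = s ∧ Y y s t a' = t ∧ ∀ σ, σ ≠ a → σ ≠ a' → Y y s t σ = y σ :=
    fun y s t => ⟨by simp [hY, hne'], by simp [hY], fun σ h h' => by simp [hY, h, h']⟩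
  have four : ∀ y s s' t t', s ≤ s' → t ≤ t' → 0 < Lam lam (Y y s t) →
      vol u (Y y s' t') + vol u (Y y s t) = vol u (Y y s' t) + vol u (Y y s t') := by
    intro y s s' t t' hs ht hpos
    have mem : ∀ x s t, x ∈ body u (Y y s t) ↔ x ⬝ᵥ nrm u a ≤ s ∧ x ⬝ᵥ nrm u a' ≤ t ∧
        ∀ σ, σ ≠ a → σ ≠ a' → x ⬝ᵥ nrm u σ ≤ y σ := by
      intro x s t
      obtain ⟨v1, v2, v3⟩ := val y s t
      refine ⟨fun h => ⟨v1 ▸ h a, v2 ▸ h a', fun σ h1 h2 => v3 σ h1 h2 ▸ h σ⟩,
        fun ⟨h1, h2, h3⟩ σ => ?_⟩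
      rcases eq_or_ne σ a with rfl | e1
      · rwa [v1]
      rcases eq_or_ne σ a' with rfl | e2
      · rwa [v2]
      · rw [v3 σ e1 e2]; exact h3 σ e1 e2
    have hu' : body u (Y y s' t') = body u (Y y s' t) ∪ body u (Y y s t') := by
      ext x
      simp only [Set.mem_union, mem]
      constructor
      · rintro ⟨h1, h2, h3⟩
        by_cases hxs : x ⬝ᵥ nrm u a ≤ s
        · exact Or.inr ⟨hxs, h2, h3⟩
        by_cases hxt : x ⬝ᵥ nrm u a' ≤ t
        · exact Or.inl ⟨h1, hxt, h3⟩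
        obtain ⟨v1, v2, v3⟩ := val y s t
        have hle : Lam lam (Y y s t) ≤ ∑ τ, lam τ * (x ⬝ᵥ nrm u τ) :=
          Finset.sum_le_sum fun τ _ => by
            rcases eq_or_ne τ a with rfl | e1
            · rw [v1]; exact mul_le_mul_of_nonneg_left (not_le.1 hxs).le ha.le
            rcases eq_or_ne τ a' with rfl | e2
            · rw [v2]; exact mul_le_mul_of_nonneg_left (not_le.1 hxt).le ha'.le
            · rw [v3 τ e1 e2]
              refine mul_le_mul_of_nonpos_left (h3 τ e1 e2) (not_lt.1 fun h => ?_)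
              have := mem_posSet.2 h
              simp [hp, e1, e2] at this
        rw [sum_dot u hw.2.1.2.2 x] at hle
        linarith
      · rintro (⟨h1, h2, h3⟩ | ⟨h1, h2, h3⟩)
        · exact ⟨h1, h2.trans ht, h3⟩
        · exact ⟨h1.trans hs, h2, h3⟩
    have hi : body u (Y y s t) = body u (Y y s' t) ∩ body u (Y y s t') := by
      ext x
      simp only [Set.mem_inter_iff, mem]
      exact ⟨fun ⟨h1, h2, h3⟩ => ⟨⟨h1.trans hs, h2, h3⟩, h1, h2.trans ht, h3⟩,
        fun ⟨⟨_, h2, h3⟩, h1, _⟩ => ⟨h1, h2, h3⟩⟩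
    simp only [vol]
    rw [hu', hi, ← ENNReal.toReal_add, measure_union_add_inter _ (isClosed_body u _).measurableSet,
      ENNReal.toReal_add] <;>
      first
      | exact (isCompact_body hu _).measure_lt_top.ne
      | exact ((isCompact_body hu _).union (isCompact_body hu _)).measure_lt_top.ne
      | exact ((isCompact_body hu _).inter_right (isClosed_body u _)).measure_lt_top.ne
  refine pderiv_zero_of_const hW hne fun y hy => ?_
  obtain ⟨r, hr, hball⟩ := Metric.isOpen_iff.1 hW y hy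
  have hin : ∀ s t, |s - y a| < r → |t - y a'| < r → Y y s t ∈ W := fun s t h1 h2 => hball (by
    rw [Metric.mem_ball, dist_pi_lt_iff hr]
    intro σ
    obtain ⟨v1, v2, v3⟩ := val y s t
    rcases eq_or_ne σ a with rfl | e1
    · rwa [v1, Real.dist_eq]
    rcases eq_or_ne σ a' with rfl | e2
    · rwa [v2, Real.dist_eq]
    · rw [v3 σ e1 e2]; simpa using hr)
  filter_upwards [Metric.ball_mem_nhds (y a) hr] with s hs
  rw [Metric.mem_ball, Real.dist_eq] at hs
  have key : ∀ t, |t - y a'| < r → ev (Y y s t) PA - ev (Y y (y a) t) PA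
      = ev (Y y s (y a')) PA - ev (Y y (y a) (y a')) PA := by
    intro t ht
    have m := fun p q h1 h2 => hWp _ (hin p q h1 h2)
    have r0 : |y a - y a| < r := by simpa using hr
    have r1 : |y a' - y a'| < r := by simpa using hr
    rw [← (m _ _ hs ht).2, ← (m _ _ r0 ht).2, ← (m _ _ hs r1).2, ← (m _ _ r0 r1).2]
    rcases le_total (y a) s with h | h <;> rcases le_total (y a') t with h' | h'
    · have := four y _ _ _ _ h h' (m _ _ r0 r1).1; linarith
    · have := four y _ _ _ _ h h' (m _ _ r0 ht).1; linarith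
    · have := four y _ _ _ _ h h' (m _ _ hs r1).1; linarith
    · have := four y _ _ _ _ h h' (m _ _ hs ht).1; linarith
  have d1 := ev_update_deriv PA (Function.update y a s) a'
  have d2 := ev_update_deriv PA (Function.update y a (y a)) a'
  rw [Function.update_eq_self] at d2
  rw [Function.update_of_ne hne'.symm] at d1
  have d := d1.sub d2
  have hc : (fun t => ev (Function.update (Function.update y a s) a' t) PA
      - ev (Function.update y a' t) PA) =ᶠ[𝓝 (y a')]
      fun _ => ev (Y y s (y a')) PA - ev (Y y (y a) (y a')) PA := by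
    filter_upwards [Metric.ball_mem_nhds (y a') hr] with t ht
    have := key t (by simpa [Real.dist_eq] using ht)
    simpa [hY] using this
  exact sub_eq_zero.1 (d.unique ((hasDerivAt_const (y a') _).congr_of_eventuallyEq hc))

theorem hess_side (hS : SlabSpec) (h3 : 3 ≤ n) (hu : GenPos u) (hw : Wall u b lam)
    {PA : Poly (Sd N)} (hA : AtSide u b lam PA) (σ τ : Sd N) (hne : σ.1 ≠ τ.1) :
    ∀ᶠ y in 𝓝 b, 0 < Lam lam y → 0 ≤ ev y (pderiv σ (pderiv τ PA)) := by
  obtain ⟨k, rfl⟩ : ∃ k, n = k + 1 := ⟨n - 1, by omega⟩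
  obtain ⟨M, rfl⟩ := exists_succ hu
  obtain ⟨O, hO, hOo, hbO⟩ := eventually_nhds_iff.1 (hA.2.and (eventually_width hw.1))
  filter_upwards [hOo.mem_nhds hbO] with y hy h0
  have hWo : IsOpen (O ∩ {z | 0 < Lam lam z}) :=
    hOo.inter (isOpen_lt continuous_const (continuous_Lam lam))
  rw [pderiv_comm' PA σ τ,
    ← hess_eq_ev hWo (fun z hz => (hO z hz.1).1 hz.2) (show y ∈ O ∩ {z | 0 < Lam lam z} from ⟨hy, h0⟩) σ τ]
  obtain ⟨-, -, -, -, -, -, -, -, -, h2, -⟩ := (hS k M u (by omega) hu).2 y (hO y hy).2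
  exact (h2 (by omega)).2.2.2 σ τ hne

end Vale.Agent.P227.LpN.Cells
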