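import Vale.Agent.P227.LpN.Cells.Basic

/-!
# P227 `LpN` cells: slab bodies on the line
-/

namespace Vale.Agent.P227.LpN.Cells

open MeasureTheory Set Filter Finset Matrix
open scoped Topology

variable {N : ℕ} {u : Fin N → Vec 1}

/-- The scalar normal of a side. -/
noncomputable def coef (u : Fin N → Vec 1) (σ : Sd N) : ℝ := nrm u σ 0

/-- The end cut by a side. -/
noncomputable def cut (u : Fin N → Vec 1) (y : Sd N → ℝ) (σ : Sd N) : ℝ := y σ / coef u σ

open Classical in
/-- Sides cutting from above. -/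
noncomputable def upS (u : Fin N → Vec 1) : Finset (Sd N) := Finset.univ.filter fun σ => 0 < coef u σ

open Classical in
/-- Sides cutting from below. -/
noncomputable def loS (u : Fin N → Vec 1) : Finset (Sd N) := Finset.univ.filter fun σ => coef u σ < 0

theorem coef_flip (u : Fin N → Vec 1) (i : Fin N) (s : Bool) :
    coef u (i, !s) = -coef u (i, s) := by
  simp [coef, nrm, sgn_not]

theorem coef_ne (hu : GenPos u) (σ : Sd N) : coef u σ ≠ 0 := by
  obtain ⟨e, he⟩ := emb_superset hu (I := {σ.1}) (by simp)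
  obtain ⟨k, hk⟩ := he σ.1 (Finset.mem_singleton_self _)
  intro h
  refine (hu.2 e).ne_zero k ?_
  funext j
  rw [Subsingleton.elim j 0, hk]
  have : sgn σ.2 * u σ.1 0 = 0 := by simpa [coef, nrm] using h
  exact (mul_eq_zero.1 this).resolve_left (by cases σ.2 <;> simp [sgn])

theorem up_lo_nonempty (hu : GenPos u) : (upS u).Nonempty ∧ (loS u).Nonempty := by
  have i : Fin N := ⟨0, by have := hu.1; omega⟩
  have hf := coef_flip u i true
  simp only [Bool.not_true] at hf
  rcases (coef_ne hu (i, true)).lt_or_gt with h | h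
  · exact ⟨⟨(i, false), by simp [upS, hf]; linarith⟩, ⟨(i, true), by simp [loS, h]⟩⟩
  · exact ⟨⟨(i, true), by simp [upS, h]⟩, ⟨(i, false), by simp [loS, hf]; linarith⟩⟩

/-- The upper end. -/
noncomputable def hiEnd (hu : GenPos u) (y : Sd N → ℝ) : ℝ :=
  (upS u).inf' (up_lo_nonempty hu).1 (cut u y)

/-- The lower end. -/
noncomputable def loEnd (hu : GenPos u) (y : Sd N → ℝ) : ℝ :=
  (loS u).sup' (up_lo_nonempty hu).2 (cut u y)

theorem dot_one (x : Vec 1) (σ : Sd N) : x ⬝ᵥ nrm u σ = x 0 * coef u σ := by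
  simp [dotProduct, coef]

theorem tight_cut (hu : GenPos u) {y : Sd N → ℝ} {x : Vec 1} {σ : Sd N} :
    σ ∈ tight u y x ↔ cut u y σ = x 0 := by
  rw [mem_tight, dot_one, cut, div_eq_iff (coef_ne hu σ), eq_comm]

theorem body_one (hu : GenPos u) (y : Sd N → ℝ) :
    body u y = Set.Icc (fun _ => loEnd hu y) (fun _ => hiEnd hu y) := by
  ext x
  simp only [body, Set.mem_ofPred_eq, Set.mem_Icc, Pi.le_def, Fin.forall_fin_one, loEnd, hiEnd,
    Finset.sup'_le_iff, Finset.le_inf'_iff, dot_one]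
  constructor
  · exact fun h => ⟨fun σ hσ => (div_le_iff_of_neg (by simpa [loS] using hσ)).2 (h σ),
      fun σ hσ => (le_div_iff₀ (by simpa [upS] using hσ)).2 (h σ)⟩
  · rintro ⟨h1, h2⟩ σ
    rcases (coef_ne hu σ).lt_or_gt with h | h
    · exact (div_le_iff_of_neg h).1 (h1 σ (by simp [loS, h]))
    · exact (le_div_iff₀ h).1 (h2 σ (by simp [upS, h]))

theorem vol_one (hu : GenPos u) (y : Sd N → ℝ) :
    vol u y = max (hiEnd hu y - loEnd hu y) 0 := by
  rw [vol, body_one hu, Real.volume_Icc_pi, Fin.prod_univ_one, ENNReal.toReal_ofReal']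

theorem continuous_vol_one (hu : GenPos u) : Continuous (vol u) := by
  have hc : ∀ σ, Continuous fun y : Sd N → ℝ => cut u y σ := fun σ => by unfold cut; fun_prop
  have h : vol u = fun y => max (hiEnd hu y - loEnd hu y) 0 := funext (vol_one hu)
  rw [h]
  exact ((Continuous.finset_inf'_apply _ fun σ _ => hc σ).sub
    (Continuous.finset_sup'_apply _ fun σ _ => hc σ)).max continuous_const

/-- Near a simple body the length is linear. -/
theorem local_one (hu : GenPos u) {b : Sd N → ℝ} (hb : Simple u b) :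
    ∃ v : Sd N → ℝ, ∀ᶠ y in 𝓝 b, vol u y = Lam v y := by
  classical
  have hc : ∀ σ, Continuous fun y : Sd N → ℝ => cut u y σ := fun σ => by unfold cut; fun_prop
  have chi : Continuous (hiEnd hu) := Continuous.finset_inf'_apply _ fun σ _ => hc σ
  have clo : Continuous (loEnd hu) := Continuous.finset_sup'_apply _ fun σ _ => hc σ
  obtain ⟨p, hp, hpe⟩ : ∃ p ∈ upS u, hiEnd hu b = cut u b p :=
    Finset.exists_mem_eq_inf' (up_lo_nonempty hu).1 _
  obtain ⟨q, hq, hqe⟩ : ∃ q ∈ loS u, loEnd hu b = cut u b q :=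
    Finset.exists_mem_eq_sup' (up_lo_nonempty hu).2 _
  have hne : p ≠ q := fun h => by
    subst h
    simp only [upS, loS, Finset.mem_filter] at hp hq
    exact lt_asymm hp.2 hq.2
  have one : ∀ x ∈ body u b, ∀ σ τ, cut u b σ = x 0 → cut u b τ = x 0 → σ = τ := fun x hx σ τ h h' =>
    Finset.card_le_one.1 (hb.2 x hx) σ ((tight_cut hu).2 h) τ ((tight_cut hu).2 h')
  by_cases hcase : loEnd hu b ≤ hiEnd hu b
  · have hlt : loEnd hu b < hiEnd hu b := hcase.lt_of_ne fun h => hne (one (fun _ => hiEnd hu b)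
      (by rw [body_one hu]; exact ⟨fun _ => hcase, fun _ => le_rfl⟩) p q hpe.symm (by rw [← h, hqe]))
    have e1 : ∀ᶠ y in 𝓝 b, ∀ σ ∈ upS u, σ ≠ p → cut u y p < cut u y σ := by
      refine eventually_all.2 fun σ => eventually_imp_distrib_left.2 fun hσ =>
        eventually_imp_distrib_left.2 fun hσp => (hc p).continuousAt.eventually_lt (hc σ).continuousAt ?_
      refine lt_of_le_of_ne (hpe ▸ Finset.inf'_le _ hσ) fun h => hσp (one (fun _ => hiEnd hu b)
        (by rw [body_one hu]; exact ⟨fun _ => hcase, fun _ => le_rfl⟩) σ p (by rw [← h, hpe]) hpe.symm)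
    have e2 : ∀ᶠ y in 𝓝 b, ∀ σ ∈ loS u, σ ≠ q → cut u y σ < cut u y q := by
      refine eventually_all.2 fun σ => eventually_imp_distrib_left.2 fun hσ =>
        eventually_imp_distrib_left.2 fun hσp => (hc σ).continuousAt.eventually_lt (hc q).continuousAt ?_
      refine lt_of_le_of_ne (hqe ▸ Finset.le_sup' _ hσ) fun h => hσp (one (fun _ => loEnd hu b)
        (by rw [body_one hu]; exact ⟨fun _ => le_rfl, fun _ => hcase⟩) σ q (by rw [h, hqe]) hqe.symm)
    refine ⟨Pi.single p (coef u p)⁻¹ - Pi.single q (coef u q)⁻¹, ?_⟩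
    filter_upwards [e1, e2, clo.continuousAt.eventually_lt chi.continuousAt hlt] with y h1 h2 h3
    have i1 : hiEnd hu y = cut u y p := le_antisymm (Finset.inf'_le _ hp)
      (Finset.le_inf' _ _ fun σ hσ => (eq_or_ne σ p).elim (fun h => h ▸ le_rfl)
        fun h => (h1 σ hσ h).le)
    have i2 : loEnd hu y = cut u y q := le_antisymm (Finset.sup'_le _ _ fun σ hσ =>
      (eq_or_ne σ q).elim (fun h => h ▸ le_rfl) fun h => (h2 σ hσ h).le) (Finset.le_sup' _ hq)
    rw [vol_one hu, max_eq_left (sub_nonneg.2 h3.le), i1, i2]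
    simp [Lam, sub_mul, Pi.single_apply, cut, div_eq_inv_mul]
  · refine ⟨0, ?_⟩
    filter_upwards [chi.continuousAt.eventually_lt clo.continuousAt (not_le.1 hcase)] with y h
    rw [vol_one hu, max_eq_right (by linarith)]
    simp [Lam]

end Vale.Agent.P227.LpN.Cells
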