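import Vale.Agent.P227.LpN.Poly
import Vale.Agent.P227.LpN.Cells.One

/-!
# P227 `LpN` cells: one polynomial near a simple body, one on a connected set of them
-/

namespace Vale.Agent.P227.LpN.Cells

open PolyCalc MeasureTheory Set Filter Finset Matrix MvPolynomial
open scoped Topology

variable {n N : ℕ} {u : Fin N → Vec n} {b : Sd N → ℝ}

section poly

variable {ι : Type} [Fintype ι]

theorem ev_lamPoly (v y : ι → ℝ) : ev y (lamPoly v) = ∑ σ, v σ * y σ := by simp [lamPoly]

theorem pderiv_lamPoly (v : ι → ℝ) (σ : ι) : pderiv σ (lamPoly v) = C (v σ) := by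
  classical
  simp [lamPoly, Pi.single_apply, smul_eq_C_mul]

theorem hom_lamPoly (v : ι → ℝ) : Hom 1 (lamPoly v) := by
  show ∑ σ, X σ * pderiv σ (lamPoly v) = _
  simp only [pderiv_lamPoly]
  simp [lamPoly, smul_eq_C_mul, mul_comm]

theorem ev_update_deriv [DecidableEq ι] (P : Poly ι) (y : ι → ℝ) (σ : ι) :
    HasDerivAt (fun s => ev (Function.update y σ s) P) (ev y (pderiv σ P)) (y σ) := by
  have h : HasFDerivAt (fun x => ev x P)
      (∑ τ, ev y (pderiv τ P) • ContinuousLinearMap.proj (R := ℝ) (φ := fun _ : ι => ℝ) τ)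
      (Function.update y σ (y σ)) := by
    rw [Function.update_eq_self]; exact ev_hasFDerivAt P y
  exact (h.comp_hasDerivAt (y σ) (hasDerivAt_update y σ (y σ))).congr_deriv
    (by simp [Pi.single_apply])

omit [Fintype ι] in
theorem continuous_ev (P : Poly ι) : Continuous fun y => ev y P := MvPolynomial.continuous_eval P

theorem deriv_eq_ev [DecidableEq ι] {f : (ι → ℝ) → ℝ} {P : Poly ι} {U : Set (ι → ℝ)}
    (hU : IsOpen U) (h : ∀ y ∈ U, f y = ev y P) {y : ι → ℝ} (hy : y ∈ U) (σ : ι) :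
    deriv (fun s => f (Function.update y σ s)) (y σ) = ev y (pderiv σ P) := by
  have he : ∀ᶠ s in 𝓝 (y σ), Function.update y σ s ∈ U :=
    (((continuous_const (y := y)).update σ continuous_id).tendsto' (y σ) y (by simp)).eventually
      (hU.mem_nhds hy)
  refine ((ev_update_deriv P y σ).congr_of_eventuallyEq ?_).deriv
  filter_upwards [he] with s hs using h _ hs

end poly

theorem area_eq_ev {U : Set (Sd N → ℝ)} (hU : IsOpen U) {P : Poly (Sd N)}
    (h : ∀ y ∈ U, vol u y = ev y P) {y : Sd N → ℝ} (hy : y ∈ U) (σ : Sd N) :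
    area u y σ = ev y (pderiv σ P) := deriv_eq_ev hU h hy σ

theorem hess_eq_ev {U : Set (Sd N → ℝ)} (hU : IsOpen U) {P : Poly (Sd N)}
    (h : ∀ y ∈ U, vol u y = ev y P) {y : Sd N → ℝ} (hy : y ∈ U) (σ τ : Sd N) :
    hess u y σ τ = ev y (pderiv τ (pderiv σ P)) :=
  deriv_eq_ev (f := fun z => area u z σ) hU (fun _ hz => area_eq_ev hU h hz σ) hy τ

theorem width_simple {y : Sd N → ℝ} (hy : Simple u y) : Width y := hy.1

theorem eventually_simple (hu : GenPos u) (hb : Simple u b) : ∀ᶠ y in 𝓝 b, Simple u y := by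
  filter_upwards [eventually_width hb.1, eventually_pattern hu b] with y hw hp
  refine ⟨hw, fun x hx => ?_⟩
  obtain ⟨x', hx', hsub⟩ := hp x hx _ subset_rfl
  exact (Finset.card_le_card hsub).trans (hb.2 x' hx')

theorem facet_simple {M : ℕ} {v : Fin (M + 1) → Vec (n + 1)} (hv : GenPos v)
    {c : Sd (M + 1) → ℝ} (hc : Simple v c) (σ : Sd (M + 1)) :
    Simple (fNormals v σ.1) (fMap v σ c) := by
  refine ⟨width_fMap hc.1, fun z hz => ?_⟩
  have := hc.2 _ (liftF_mem hv hc.1 hz)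
  rw [card_tight_liftF hv hc.1] at this
  omega

theorem exists_succ {n N : ℕ} {u : Fin N → Vec n} (hu : GenPos u) : ∃ M, N = M + 1 :=
  ⟨N - 1, by have := hu.1; omega⟩

/-- Near a simple body the volume is one polynomial. -/
theorem local_poly (hS : SlabSpec) (hn : 1 ≤ n) (hu : GenPos u) (hb : Simple u b) :
    ∃ P, LocalPoly u b P := by
  induction n, hn using Nat.le_induction generalizing N with
  | base =>
    obtain ⟨v, hv⟩ := local_one hu hb
    refine ⟨lamPoly v, hom_lamPoly v, ?_⟩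
    filter_upwards [hv] with y hy
    rw [hy, ev_lamPoly]; rfl
  | succ k hk ih =>
    obtain ⟨M, rfl⟩ := exists_succ hu
    obtain ⟨hg, hcalc⟩ := hS k M u hk hu
    choose Pf hPf using fun σ : Sd (M + 1) => ih (hg σ.1) (facet_simple hu hb σ)
    set P : Poly (Sd (M + 1)) :=
      ((k : ℝ) + 1)⁻¹ • ∑ σ, X σ * (fJac u σ.1 • subst (fMap u σ) (Pf σ)) with hP
    have hev : ∀ᶠ y in 𝓝 b, Width y ∧
        ∀ σ, vol (fNormals u σ.1) (fMap u σ y) = ev (fMap u σ y) (Pf σ) :=
      (eventually_width hb.1).and (eventually_all.2 fun σ =>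
        ((fMap u σ).continuous_of_finiteDimensional.tendsto b).eventually (hPf σ).2)
    have hvol : ∀ᶠ y in 𝓝 b, vol u y = ev y P := by
      filter_upwards [hev] with y ⟨hw, hy⟩
      obtain ⟨-, ha, -, -, -, he, -⟩ := hcalc y hw
      have hk0 : (k : ℝ) + 1 ≠ 0 := by positivity
      simp only [hP, ev_smul, ev_sum, ev_mul, ev_X, ev_subst]
      simp only [← hy, ← ha]
      rw [eq_inv_mul_iff_mul_eq₀ hk0, ← he]
      exact Finset.sum_congr rfl fun σ _ => mul_comm _ _
    obtain ⟨U, hU, hUo, hbU⟩ := eventually_nhds_iff.1 ((hev.and hvol))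
    refine ⟨P, poly_ext_open hUo ⟨b, hbU⟩ fun y hy => ?_, hvol⟩
    obtain ⟨-, -, -, -, -, he, -⟩ := hcalc y (hU y hy).1.1
    rw [ev_smul, ← (hU y hy).2, Nat.cast_add, Nat.cast_one, ← he, ev_sum]
    refine Finset.sum_congr rfl fun σ _ => ?_
    rw [ev_mul, ev_X, ← area_eq_ev hUo (fun z hz => (hU z hz).2) hy σ, mul_comm]

theorem localPoly_unique {P Q : Poly (Sd N)} (hP : LocalPoly u b P) (hQ : LocalPoly u b Q) :
    P = Q := by
  obtain ⟨U, hU, hUo, hbU⟩ := eventually_nhds_iff.1 (hP.2.and hQ.2)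
  exact poly_ext_open hUo ⟨b, hbU⟩ fun y hy => (hU y hy).1.symm.trans (hU y hy).2

/-- On a connected open set of simple bodies the volume is one polynomial. -/
theorem poly_on (hS : SlabSpec) (hn : 1 ≤ n) (hu : GenPos u) {U : Set (Sd N → ℝ)}
    (hU : IsPreconnected U) (hne : U.Nonempty) (hs : ∀ y ∈ U, Simple u y) :
    ∃ P, Hom n P ∧ ∀ y ∈ U, vol u y = ev y P := by
  choose P hP using fun y : U => local_poly hS hn hu (hs y.1 y.2)
  have hlc : IsLocallyConstant P := by
    refine (IsLocallyConstant.iff_eventually_eq P).2 fun y => ?_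
    rw [nhds_subtype_eq_comap, eventually_comap]
    filter_upwards [eventually_eventually_nhds.2 (hP y).2] with z hz z' hz'
    subst hz'
    exact localPoly_unique (hP z') ⟨(hP y).1, hz⟩
  obtain ⟨y₀, hy₀⟩ := hne
  have : PreconnectedSpace U := Subtype.preconnectedSpace hU
  refine ⟨P ⟨y₀, hy₀⟩, (hP _).1, fun y hy => ?_⟩
  rw [← hlc.apply_eq_of_preconnectedSpace ⟨y, hy⟩ ⟨y₀, hy₀⟩]
  exact (hP ⟨y, hy⟩).2.self_of_nhds

end Vale.Agent.P227.LpN.Cells
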