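import Vale.Agent.P227.LpN.Cells.Jump

/-!
# P227 `LpN` cells: generic paths and parabolas

All bodies that are not simple lie on finitely many hyperplanes, one for each circuit.
-/

namespace Vale.Agent.P227.LpN.Cells

open PolyCalc MeasureTheory Set Filter Finset Matrix MvPolynomial
open scoped Topology

variable {n N : ℕ} {u : Fin N → Vec n}

theorem exists_family (hu : GenPos u) : ∃ F : Finset (Sd N → ℝ), (∀ l ∈ F, Circuit u l) ∧
    (∀ S : Finset (Sd N), S.card = n + 1 → Set.InjOn Prod.fst (S : Set (Sd N)) →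
      ∃ l ∈ F, supp l = S) ∧
    ∀ l ∈ F, ∀ l' ∈ F, supp l = supp l' → l = l' := by
  classical
  choose f hf hs using fun S : {S : Finset (Sd N) // S.card = n + 1 ∧
    Set.InjOn Prod.fst (S : Set (Sd N))} => circuit_exists hu S.2.1 S.2.2
  refine ⟨Finset.univ.image f, fun l hl => ?_, fun S h1 h2 =>
    ⟨f ⟨S, h1, h2⟩, Finset.mem_image_of_mem _ (Finset.mem_univ _), hs _⟩, fun l hl l' hl' e => ?_⟩
  · obtain ⟨S, -, rfl⟩ := Finset.mem_image.1 hl; exact hf S
  · obtain ⟨S, -, rfl⟩ := Finset.mem_image.1 hl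
    obtain ⟨S', -, rfl⟩ := Finset.mem_image.1 hl'
    rw [hs, hs] at e
    rw [Subtype.ext e]

variable {F : Finset (Sd N → ℝ)}

theorem simple_of_off (hF : ∀ l ∈ F, Circuit u l)
    (hall : ∀ S : Finset (Sd N), S.card = n + 1 → Set.InjOn Prod.fst (S : Set (Sd N)) →
      ∃ l ∈ F, supp l = S)
    {y : Sd N → ℝ} (hy : Width y) (h : ∀ l ∈ F, Lam l y ≠ 0) : Simple u y := by
  refine ⟨hy, fun x hx => not_lt.1 fun hlt => ?_⟩
  obtain ⟨S, hS, hc⟩ := Finset.exists_subset_card_eq (show n + 1 ≤ (tight u y x).card from hlt)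
  obtain ⟨l, hl, hls⟩ := hall S hc ((tight_injOn hy).mono (Finset.coe_subset.2 hS))
  exact h l hl (Lam_eq_zero (hF l hl) (hls ▸ hS))

theorem wall_of_unique (hF : ∀ l ∈ F, Circuit u l)
    (hall : ∀ S : Finset (Sd N), S.card = n + 1 → Set.InjOn Prod.fst (S : Set (Sd N)) →
      ∃ l ∈ F, supp l = S)
    {y : Sd N → ℝ} (hy : Width y) (hns : ¬Simple u y) {l : Sd N → ℝ} (hl : l ∈ F)
    (huniq : ∀ l' ∈ F, Lam l' y = 0 → l' = l) : Wall u y l := by
  classical
  have key : ∀ x ∈ body u y, n < (tight u y x).card → tight u y x = supp l := by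
    intro x hx hlt
    have sub : ∀ S ⊆ tight u y x, S.card = n + 1 → S = supp l := fun S hS hc => by
      obtain ⟨l', hl', hls⟩ := hall S hc ((tight_injOn hy).mono (Finset.coe_subset.2 hS))
      rw [← hls, huniq l' hl' (Lam_eq_zero (hF l' hl') (hls ▸ hS))]
    refine Finset.Subset.antisymm (fun σ hσ => ?_) ?_
    · obtain ⟨S, hσS, hS, hc⟩ := Finset.exists_subsuperset_card_eq
        (Finset.singleton_subset_iff.2 hσ) (n := n + 1) (by simp) (show n + 1 ≤ _ from hlt)
      exact sub S hS hc ▸ hσS (Finset.mem_singleton_self σ)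
    · obtain ⟨S, hS, hc⟩ := Finset.exists_subset_card_eq (show n + 1 ≤ (tight u y x).card from hlt)
      exact sub S hS hc ▸ hS
  refine ⟨hy, hF l hl, ?_, fun x hx => (Nat.lt_or_ge n _).symm.imp_right (key x hx)⟩
  by_contra h
  exact hns ⟨hy, fun x hx => not_lt.1 fun hlt => h ⟨x, hx, key x hx hlt⟩⟩

/-- A point off finitely many hyperplanes through the origin. -/
theorem exists_generic' (F : Finset (Sd N → ℝ)) :
    ∃ ξ : Sd N → ℝ, ∀ l ∈ F, l ≠ 0 → Lam l ξ ≠ 0 := by
  induction F using Finset.induction with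
  | empty => exact ⟨0, by simp⟩
  | insert w F _ ih =>
    obtain ⟨ξ, hξ⟩ := ih
    rcases eq_or_ne w 0 with rfl | hw
    · exact ⟨ξ, fun l hl hne => hξ l (Finset.mem_of_mem_insert_of_ne hl hne) hne⟩
    have avoid : ∀ A B : ℝ, B ≠ 0 → ∀ᶠ η in 𝓝[>] (0 : ℝ), A + η * B ≠ 0 := fun A B hB => by
      rcases eq_or_ne A 0 with rfl | hA
      · filter_upwards [self_mem_nhdsWithin] with η hη
        simpa using mul_ne_zero (ne_of_gt hη) hB
      · exact ((Continuous.tendsto' (by fun_prop) 0 A (by simp)).eventually_ne hA).filter_mono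
          nhdsWithin_le_nhds
    have h2 : ∀ᶠ η in 𝓝[>] (0 : ℝ), ∀ l ∈ F, l ≠ 0 → Lam l (ξ + η • w) ≠ 0 :=
      (eventually_all_finset F).2 fun l hl => eventually_imp_distrib_left.2 fun hne => by
        refine ((Continuous.tendsto' ?_ (0 : ℝ) (Lam l ξ) ?_).eventually_ne (hξ l hl hne)).filter_mono
          nhdsWithin_le_nhds
        · simp only [Lam_add_smul]; fun_prop
        · simp
    obtain ⟨η, h1, h3⟩ :=
      ((avoid (Lam w ξ) _ (Lam_self_pos hw).ne').and h2).exists
    refine ⟨ξ + η • w, fun l hl hne => ?_⟩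
    rcases Finset.mem_insert.1 hl with rfl | hl
    · rwa [Lam_add_smul]
    · exact h3 l hl hne

theorem exists_near {p : (Sd N → ℝ) → Prop} (a : Sd N → ℝ) (F : Finset (Sd N → ℝ))
    (hF : ∀ l ∈ F, l ≠ 0) (hp : ∀ᶠ y in 𝓝 a, p y) : ∃ a', p a' ∧ ∀ l ∈ F, Lam l a' ≠ 0 := by
  obtain ⟨ξ, hξ⟩ := exists_generic' F
  have hl : Tendsto (fun η : ℝ => a + η • ξ) (𝓝[>] 0) (𝓝 a) :=
    ((continuous_const (y := a)).add (continuous_id.smul (continuous_const (y := ξ)))).tendsto'
      (0 : ℝ) a (by simp) |>.mono_left nhdsWithin_le_nhds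
  have hv : ∀ᶠ η in 𝓝[>] (0 : ℝ), ∀ l ∈ F, Lam l (a + η • ξ) ≠ 0 :=
    (eventually_all_finset F).2 fun l hlF => by
      rcases eq_or_ne (Lam l a) 0 with h0 | h0
      · filter_upwards [self_mem_nhdsWithin] with η hη
        rw [Lam_add_smul, h0, zero_add]
        exact mul_ne_zero (ne_of_gt hη) (hξ l hlF (hF l hlF))
      · exact hl.eventually (((continuous_Lam l).tendsto a).eventually_ne h0)
  obtain ⟨η, h1, h2⟩ := ((hl.eventually hp).and hv).exists
  exact ⟨_, h1, h2⟩

theorem path (hu : GenPos u) (a b : Sd N → ℝ) (ha : Simple u a) (hb : Simple u b) (ε : ℝ)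
    (hε : 0 < ε) : ∃ a' b', dist a' a < ε ∧ dist b' b < ε ∧
      ∃ T : Finset ℝ, ∀ t ∈ Set.Icc (0 : ℝ) 1, Width ((1 - t) • a' + t • b') ∧
        (t ∉ T → Simple u ((1 - t) • a' + t • b')) ∧
        (t ∈ T → Simple u ((1 - t) • a' + t • b') ∨
          ∃ lam, Wall u ((1 - t) • a' + t • b') lam ∧ 0 < t ∧ t < 1 ∧
            Lam lam (b' - a') ≠ 0) := by
  classical
  obtain ⟨F, hF, hall, hinj⟩ := exists_family hu
  obtain ⟨a', ⟨hda, hsa⟩, ha'⟩ := exists_near a F (fun l hl => circuit_ne_zero (hF l hl))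
    ((Metric.eventually_nhds_iff.2 ⟨ε, hε, fun _ h => h⟩ : ∀ᶠ y in 𝓝 a, dist y a < ε).and
      (eventually_simple hu ha))
  let G : Finset (Sd N → ℝ) := F ∪ ((F ×ˢ F).filter fun p => p.1 ≠ p.2).image
    fun p => Lam p.1 a' • p.2 - Lam p.2 a' • p.1
  have hG : ∀ g ∈ G, g ≠ 0 := by
    intro g hg
    rcases Finset.mem_union.1 hg with hg | hg
    · exact circuit_ne_zero (hF g hg)
    obtain ⟨⟨l, l'⟩, hp, rfl⟩ := Finset.mem_image.1 hg
    simp only [Finset.mem_filter, Finset.mem_product] at hp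
    obtain ⟨σ, hσ, hσ'⟩ : ∃ σ ∈ supp l', σ ∉ supp l := by
      by_contra h
      push Not at h
      exact hp.2 (hinj l hp.1.1 l' hp.1.2 (Finset.eq_of_subset_of_card_le h
        (by rw [(hF l hp.1.1).1, (hF l' hp.1.2).1])).symm)
    intro e
    have := congrFun e σ
    simp only [mem_supp, not_not] at hσ'
    simp [hσ', ha' l hp.1.1, mem_supp.1 hσ] at this
  obtain ⟨b', ⟨hdb, hsb⟩, hb'⟩ := exists_near b G hG
    ((Metric.eventually_nhds_iff.2 ⟨ε, hε, fun _ h => h⟩ : ∀ᶠ y in 𝓝 b, dist y b < ε).and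
      (eventually_simple hu hb))
  refine ⟨a', b', hda, hdb, F.image fun l => Lam l a' / (Lam l a' - Lam l b'), fun t ht => ?_⟩
  set y := (1 - t) • a' + t • b' with hy
  have hw : Width y := fun i => by
    have h1 := hsa.1 i
    have h2 := hsb.1 i
    simp only [hy, Pi.add_apply, Pi.smul_apply, smul_eq_mul]
    rcases ht.1.eq_or_lt with h | h
    · subst h; linarith
    · have := mul_pos h h2
      have := mul_nonneg (sub_nonneg.2 ht.2) h1.le
      linarith
  have hL : ∀ l, Lam l y = (1 - t) * Lam l a' + t * Lam l b' := fun l => by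
    simp [hy, Lam, mul_add, Finset.sum_add_distrib, Finset.mul_sum, mul_left_comm]
  have hmem : ∀ l ∈ F, Lam l y = 0 → Lam l b' ≠ Lam l a' ∧ 0 < t ∧ t < 1 ∧
      t = Lam l a' / (Lam l a' - Lam l b') := by
    intro l hl h0
    rw [hL] at h0
    have hA := ha' l hl
    have hB := hb' l (Finset.mem_union_left _ hl)
    have hne : Lam l b' ≠ Lam l a' := fun e => hA (by rw [e] at h0; linarith)
    refine ⟨hne, ht.1.lt_of_ne fun e => hA (by subst e; linarith),
      ht.2.lt_of_ne fun e => hB (by subst e; linarith), ?_⟩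
    rw [eq_div_iff (sub_ne_zero.2 hne.symm)]
    linarith
  refine ⟨hw, fun hT => simple_of_off hF hall hw fun l hl h0 => hT (Finset.mem_image.2
    ⟨l, hl, (hmem l hl h0).2.2.2.symm⟩), fun _ => ?_⟩
  by_cases hs : Simple u y
  · exact Or.inl hs
  right
  obtain ⟨l, hl, h0⟩ : ∃ l ∈ F, Lam l y = 0 := by
    by_contra h
    push Not at h
    exact hs (simple_of_off hF hall hw h)
  obtain ⟨hne, h1, h2, -⟩ := hmem l hl h0
  refine ⟨l, wall_of_unique hF hall hw hs hl fun l' hl' h0' => ?_, h1, h2, ?_⟩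
  · by_contra hne'
    refine hb' (Lam l a' • l' - Lam l' a' • l) (Finset.mem_union_right _ (Finset.mem_image.2
      ⟨(l, l'), Finset.mem_filter.2 ⟨Finset.mem_product.2 ⟨hl, hl'⟩, Ne.symm hne'⟩, rfl⟩)) ?_
    rw [hL] at h0 h0'
    have e : Lam (Lam l a' • l' - Lam l' a' • l) b'
        = Lam l a' * Lam l' b' - Lam l' a' * Lam l b' := by
      simp [Lam, sub_mul, Finset.sum_sub_distrib, Finset.mul_sum, mul_assoc]
    rw [e]
    refine (mul_eq_zero.1 ?_).resolve_left h1.ne'
    linear_combination (Lam l a') * h0' - (Lam l' a') * h0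
  · have : Lam l (b' - a') = Lam l b' - Lam l a' := by simp [Lam, mul_sub, Finset.sum_sub_distrib]
    rw [this]; exact sub_ne_zero.2 hne

/-- Equal bounds on both sides, as a linear map. -/
def dblL (N : ℕ) : (Fin N → ℝ) →ₗ[ℝ] (Sd N → ℝ) where
  toFun h σ := h σ.1
  map_add' _ _ := rfl
  map_smul' _ _ := rfl

theorem dblL_apply (h : Fin N → ℝ) : dblL N h = dbl h := rfl

theorem quad_sign (A B C : ℝ) :
    (∀ᶠ t in 𝓝[>] (0 : ℝ), 0 < A + t * B + t ^ 2 * C) ∨
    (∀ᶠ t in 𝓝[>] (0 : ℝ), A + t * B + t ^ 2 * C < 0) ∨ (A = 0 ∧ B = 0 ∧ C = 0) := by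
  have tend : ∀ f : ℝ → ℝ, Continuous f → Tendsto f (𝓝[>] 0) (𝓝 (f 0)) :=
    fun f hf => (hf.tendsto 0).mono_left nhdsWithin_le_nhds
  have hA := tend (fun t => A + t * B + t ^ 2 * C) (by fun_prop)
  have hB := tend (fun t => B + t * C) (by fun_prop)
  simp only [zero_mul, add_zero, ne_eq, OfNat.ofNat_ne_zero, not_false_eq_true, zero_pow] at hA hB
  rcases lt_trichotomy A 0 with h | h | h
  · exact Or.inr (Or.inl (hA.eventually_lt_const h))
  swap
  · exact Or.inl (hA.eventually_const_lt h)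
  subst h
  rcases lt_trichotomy B 0 with h | h | h
  · refine Or.inr (Or.inl ?_)
    filter_upwards [hB.eventually_lt_const h, self_mem_nhdsWithin] with t h1 h2
    have := mul_neg_of_pos_of_neg (show 0 < t from h2) h1
    linarith
  swap
  · refine Or.inl ?_
    filter_upwards [hB.eventually_const_lt h, self_mem_nhdsWithin] with t h1 h2
    have := mul_pos (show 0 < t from h2) h1
    linarith
  subst h
  rcases lt_trichotomy C 0 with h | h | h
  · refine Or.inr (Or.inl ?_)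
    filter_upwards [self_mem_nhdsWithin] with t h2
    have := mul_neg_of_pos_of_neg (pow_pos (show 0 < t from h2) 2) h
    linarith
  · exact Or.inr (Or.inr ⟨rfl, rfl, h⟩)
  · refine Or.inl ?_
    filter_upwards [self_mem_nhdsWithin] with t h2
    have := mul_pos (pow_pos (show 0 < t from h2) 2) h
    linarith

theorem curve (hS : SlabSpec) (hn : 1 ≤ n) (hu : GenPos u) (h z c : Fin N → ℝ) (hh : Pos h) :
    ∃ (R : Poly (Fin N)) (U : Set (Fin N → ℝ)), Hom n R ∧ IsOpen U ∧
      (∀ y ∈ U, Pos y ∧ Simple u (dbl y) ∧ svol u y = ev y R) ∧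
      ∃ ε > (0 : ℝ), ∀ t ∈ Set.Ico (0 : ℝ) ε, h + t • z + (t ^ 2 / 2) • c ∈ closure U := by
  classical
  obtain ⟨F, hF, hall, -⟩ := exists_family hu
  have hlin : ∀ l, IsLinearMap ℝ fun y : Fin N → ℝ => Lam l (dbl y) := fun l =>
    ⟨fun x y => by simp [Lam, dbl, mul_add, Finset.sum_add_distrib],
      fun r x => by simp [Lam, dbl, Finset.mul_sum, mul_left_comm]⟩
  have hcont : ∀ l, Continuous fun y : Fin N → ℝ => Lam l (dbl y) := fun l => by
    unfold Lam dbl; fun_prop
  have hgen : ∃ ξ : Fin N → ℝ, ∀ l ∈ F, Lam l (dbl ξ) ≠ 0 := by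
    let w : (Sd N → ℝ) → Sd N → ℝ := fun l σ => if σ.2 then l (σ.1, true) + l (σ.1, false) else 0
    have hw : ∀ l ∈ F, w l ≠ 0 := fun l hl e => by
      obtain ⟨σ, hσ⟩ := Finset.card_pos.1 (by rw [(hF l hl).1]; omega : 0 < (supp l).card)
      have hz : l (σ.1, !σ.2) = 0 := by
        by_contra h
        have := congrArg Prod.snd ((hF l hl).2.1 (Finset.mem_coe.2 hσ)
          (Finset.mem_coe.2 (mem_supp.2 h)) rfl)
        simp at this
      have := congrFun e (σ.1, true)
      simp only [w, if_true, Pi.zero_apply] at this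
      refine mem_supp.1 hσ ?_
      obtain ⟨i, s⟩ := σ
      cases s <;> simp_all
    obtain ⟨η, hη⟩ := exists_generic' (F.image w)
    refine ⟨fun i => η (i, true), fun l hl e => hη (w l) (Finset.mem_image_of_mem _ hl) (hw l hl) ?_⟩
    simp only [Lam, dbl, Fintype.sum_prod_type, Fintype.sum_bool] at e ⊢
    simp only [w, if_true, Bool.false_eq_true, if_false, zero_mul, add_zero]
    rw [← e]
    exact Finset.sum_congr rfl fun i _ => by ring
  obtain ⟨ξ, hξ⟩ := hgen
  set γ : ℝ → Fin N → ℝ := fun t => h + t • z + (t ^ 2 / 2) • c with hγ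
  have hLγ : ∀ l t, Lam l (dbl (γ t))
      = Lam l (dbl h) + t * Lam l (dbl z) + t ^ 2 * (Lam l (dbl c) / 2) := fun l t => by
    simp only [hγ, (hlin l).map_add, (hlin l).map_smul, smul_eq_mul]; ring
  have hsign : ∀ l ∈ F, ∃ s : ℝ, s ≠ 0 ∧ ∀ᶠ t in 𝓝[>] (0 : ℝ),
      0 < s * Lam l (dbl (γ t)) ∨ (Lam l (dbl (γ t)) = 0 ∧ 0 < s * Lam l (dbl ξ)) := by
    intro l hl
    rcases quad_sign (Lam l (dbl h)) (Lam l (dbl z)) (Lam l (dbl c) / 2) with e | e | ⟨e1, e2, e3⟩
    · exact ⟨1, one_ne_zero, e.mono fun t ht => Or.inl (by rw [hLγ, one_mul]; exact ht)⟩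
    · exact ⟨-1, by norm_num, e.mono fun t ht => Or.inl (by rw [hLγ]; linarith)⟩
    · exact ⟨Lam l (dbl ξ), hξ l hl, Eventually.of_forall fun t => Or.inr
        ⟨by rw [hLγ, e1, e2, e3]; ring, mul_self_pos.2 (hξ l hl)⟩⟩
  choose! s hs0 hs using hsign
  set U : Set (Fin N → ℝ) := {y | Pos y ∧ ∀ l ∈ F, 0 < s l * Lam l (dbl y)} with hU
  have hUo : IsOpen U := by
    have : U = (⋂ i, {y | 0 < y i}) ∩ ⋂ l ∈ F, {y | 0 < s l * Lam l (dbl y)} := by
      ext y; simp [hU, Pos]
    rw [this]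
    exact (isOpen_iInter_of_finite fun i => isOpen_lt continuous_const (continuous_apply i)).inter
      (isOpen_biInter_finset fun l _ => isOpen_lt continuous_const (continuous_const.mul (hcont l)))
  have hUc : Convex ℝ U := by
    have : U = (⋂ i, {y : Fin N → ℝ | 0 < y i}) ∩ ⋂ l ∈ F, {y | 0 < s l * Lam l (dbl y)} := by
      ext y; simp [hU, Pos]
    rw [this]
    refine (convex_iInter fun i => convex_halfSpace_gt
      (⟨fun _ _ => rfl, fun _ _ => rfl⟩ : IsLinearMap ℝ fun y : Fin N → ℝ => y i) 0).inter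
      (convex_iInter fun l => convex_iInter fun _ => convex_halfSpace_gt (IsLinearMap.mk ?_ ?_) 0)
    · intro x y; rw [(hlin l).map_add, mul_add]
    · intro r x; rw [(hlin l).map_smul, smul_eq_mul, smul_eq_mul]; ring
  have hsimp : ∀ y ∈ U, Simple u (dbl y) := fun y hy => simple_of_off hF hall
    (fun i => by simp only [dbl]; linarith [hy.1 i])
    fun l hl e => by have := hy.2 l hl; rw [e, mul_zero] at this; exact lt_irrefl _ this
  have hγc : Continuous γ := by fun_prop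
  have hpos : ∀ᶠ t in 𝓝[>] (0 : ℝ), Pos (γ t) := by
    refine eventually_all.2 fun i => ?_
    exact ((((continuous_apply i).comp hγc).tendsto' 0 (h i) (by simp [hγ])).eventually_const_lt
      (hh i)).filter_mono nhdsWithin_le_nhds
  have hev : ∀ᶠ t in 𝓝[>] (0 : ℝ), γ t ∈ closure U := by
    filter_upwards [hpos, (eventually_all_finset F).2 hs] with t h1 h2
    refine mem_closure_of_tendsto (f := fun η : ℝ => γ t + η • ξ) (b := 𝓝[>] 0)
      ((((continuous_const (y := γ t)).add (continuous_id.smul (continuous_const (y := ξ)))).tendsto' (0 : ℝ) (γ t)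
        (by simp)).mono_left nhdsWithin_le_nhds) ?_
    refine Eventually.and ?_ ?_
    · refine eventually_all.2 fun i => ?_
      exact ((Continuous.tendsto' (by fun_prop) 0 (γ t i) (by simp)).eventually_const_lt
        (h1 i)).filter_mono nhdsWithin_le_nhds
    · refine (eventually_all_finset F).2 fun l hl => ?_
      simp only [(hlin l).map_add, (hlin l).map_smul, smul_eq_mul]
      rcases h2 l hl with e | ⟨e, e'⟩
      · exact ((Continuous.tendsto' (by fun_prop) 0 _ (by simp)).eventually_const_lt e).filter_mono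
          nhdsWithin_le_nhds
      · filter_upwards [self_mem_nhdsWithin] with η hη
        rw [e, zero_add]
        have := mul_pos (show 0 < η from hη) e'
        linarith
  have h0 : γ 0 ∈ closure U := isClosed_closure.mem_of_tendsto
    ((hγc.tendsto 0).mono_left nhdsWithin_le_nhds : Tendsto γ (𝓝[>] 0) _) hev
  have hne : U.Nonempty := closure_nonempty_iff.1 ⟨_, h0⟩
  obtain ⟨P, hP, hval⟩ := poly_on hS hn hu
    ((hUc.isPreconnected).image (dblL N) (dblL N).continuous_of_finiteDimensional.continuousOn)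
    (hne.image _) (by rintro _ ⟨y, hy, rfl⟩; exact hsimp y hy)
  refine ⟨subst (dblL N) P, U, hom_subst _ hP, hUo, fun y hy => ⟨hy.1, hsimp y hy, ?_⟩, ?_⟩
  · rw [ev_subst, svol, ← dblL_apply, hval _ ⟨y, hy, rfl⟩]
  · obtain ⟨ε, hε, hsub⟩ := mem_nhdsGT_iff_exists_Ioo_subset.1 hev
    refine ⟨ε, hε, fun t ht => ?_⟩
    rcases ht.1.eq_or_lt with e | e
    · subst e; exact h0
    · exact hsub ⟨e, ht.2⟩

end Vale.Agent.P227.LpN.Cells
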