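import Vale.Agent.P227.LpN.Cells.Local

/-!
# P227 `LpN` cells: walls and their facets
-/

namespace Vale.Agent.P227.LpN.Cells

open PolyCalc MeasureTheory Set Filter Finset Matrix MvPolynomial
open scoped Topology

variable {n N : ℕ} {u : Fin N → Vec n} {b lam : Sd N → ℝ}

theorem supp_neg (lam : Sd N → ℝ) : supp (-lam) = supp lam := by ext σ; simp [mem_supp]

theorem Lam_neg (lam y : Sd N → ℝ) : Lam (-lam) y = -Lam lam y := by simp [Lam]

theorem Lam_add_smul (lam y d : Sd N → ℝ) (ε : ℝ) :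
    Lam lam (y + ε • d) = Lam lam y + ε * Lam lam d := by
  simp [Lam, mul_add, Finset.sum_add_distrib, Finset.mul_sum, mul_left_comm]

theorem circuit_ne_zero (hc : Circuit u lam) : lam ≠ 0 := fun h => by
  have := hc.1; simp [h, supp] at this

theorem Lam_self_pos (h : lam ≠ 0) : 0 < Lam lam lam := by
  obtain ⟨σ, hσ⟩ := Function.ne_iff.1 h
  exact Finset.sum_pos' (fun τ _ => mul_self_nonneg _) ⟨σ, Finset.mem_univ _, mul_self_pos.2 hσ⟩

theorem wall_Lam (hw : Wall u b lam) : Lam lam b = 0 := by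
  obtain ⟨x, -, hx⟩ := hw.2.2.1
  exact Lam_eq_zero hw.2.1 hx.ge

theorem wall_neg (hw : Wall u b lam) : Wall u b (-lam) := by
  obtain ⟨hwid, ⟨h1, h2, h3⟩, hx, hall⟩ := hw
  refine ⟨hwid, ⟨by rw [supp_neg]; exact h1, by rw [supp_neg]; exact h2, ?_⟩,
    by rw [supp_neg]; exact hx, by rw [supp_neg]; exact hall⟩
  simp [h3]

theorem wall_eventually_simple (hu : GenPos u) (hw : Wall u b lam) :
    ∀ᶠ y in 𝓝 b, Lam lam y ≠ 0 → Simple u y := by
  filter_upwards [eventually_width hw.1, eventually_pattern hu b] with y hwid hp hne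
  refine ⟨hwid, fun x hx => not_lt.1 fun hlt => ?_⟩
  obtain ⟨S, hS, hcard⟩ := Finset.exists_subset_card_eq (show n + 1 ≤ (tight u y x).card from hlt)
  obtain ⟨x', hx', hsub⟩ := hp x hx S hS
  rcases hw.2.2.2 x' hx' with h | h
  · have := Finset.card_le_card hsub; omega
  · have e : S = supp lam := Finset.eq_of_subset_of_card_le (h ▸ hsub) (by rw [hw.2.1.1, hcard])
    exact hne (Lam_eq_zero hw.2.1 (e ▸ hS))

theorem side_nonempty {O : Set (Sd N → ℝ)} (hO : IsOpen O) (hb : b ∈ O) (hlam : lam ≠ 0)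
    (h0 : Lam lam b = 0) : (O ∩ {y | 0 < Lam lam y}).Nonempty := by
  have h : ∀ᶠ ε : ℝ in 𝓝[>] 0, b + ε • lam ∈ O :=
    (((continuous_const (y := b)).add (continuous_id.smul (continuous_const (y := lam)))).tendsto'
      (0 : ℝ) b (by simp)).eventually (hO.mem_nhds hb) |>.filter_mono nhdsWithin_le_nhds
  obtain ⟨ε, h1, h2⟩ := (h.and self_mem_nhdsWithin).exists
  refine ⟨b + ε • lam, h1, ?_⟩
  rw [Set.mem_ofPred_eq, Lam_add_smul, h0, zero_add]
  exact mul_pos h2 (Lam_self_pos hlam)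

/-- A nonempty open set on the positive side, with all that holds eventually there. -/
theorem side_open {p : (Sd N → ℝ) → Prop} (hlam : lam ≠ 0) (h0 : Lam lam b = 0)
    (h : ∀ᶠ y in 𝓝 b, 0 < Lam lam y → p y) :
    ∃ W : Set (Sd N → ℝ), IsOpen W ∧ W.Nonempty ∧ ∀ y ∈ W, 0 < Lam lam y ∧ p y := by
  obtain ⟨O, hO, hOo, hbO⟩ := eventually_nhds_iff.1 h
  exact ⟨O ∩ {y | 0 < Lam lam y}, hOo.inter (isOpen_lt continuous_const (continuous_Lam lam)),
    side_nonempty hOo hbO hlam h0, fun y hy => ⟨hy.2, hO y hy.1 hy.2⟩⟩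

theorem wall_side (hS : SlabSpec) (hn : 1 ≤ n) (hu : GenPos u) (hw : Wall u b lam) :
    ∃ PA, AtSide u b lam PA := by
  obtain ⟨r, hr, hball⟩ := Metric.eventually_nhds_iff_ball.1 (wall_eventually_simple hu hw)
  have hlin : IsLinearMap ℝ (Lam lam) := ⟨fun x y => by simp [Lam, mul_add, Finset.sum_add_distrib],
    fun c x => by simp [Lam, Finset.mul_sum, mul_left_comm]⟩
  obtain ⟨P, hP, hval⟩ := poly_on hS hn hu
    ((convex_ball b r).inter (convex_halfSpace_gt hlin 0)).isPreconnected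
    (side_nonempty Metric.isOpen_ball (Metric.mem_ball_self hr) (circuit_ne_zero hw.2.1) (wall_Lam hw))
    (fun y hy => hball y hy.1 (ne_of_gt hy.2))
  refine ⟨P, hP, ?_⟩
  filter_upwards [Metric.ball_mem_nhds b hr] with y hy h0 using hval y ⟨hy, h0⟩

/-! ## The facets of a wall -/

section facets

variable {M : ℕ} {v : Fin (M + 1) → Vec (n + 1)} {c mu : Sd (M + 1) → ℝ} {σ : Sd (M + 1)}

theorem sum_sides {α : Type*} [AddCommMonoid α] (σ : Sd (M + 1)) (f : Sd (M + 1) → α) :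
    ∑ τ, f τ = f σ + f (σ.1, !σ.2) + ∑ τ, f (emb σ.1 τ) := by
  obtain ⟨l, s⟩ := σ
  rw [Fintype.sum_prod_type, Fin.sum_univ_succAbove _ l, Fintype.sum_bool, Fintype.sum_prod_type]
  cases s
  · simp only [emb, Bool.not_false]; rw [add_comm (f (l, true))]
  · rfl

theorem opp_zero (hc : Circuit v mu) (hσ : σ ∈ supp mu) : mu (σ.1, !σ.2) = 0 := by
  by_contra h
  have := congrArg Prod.snd (hc.2.1 (Finset.mem_coe.2 hσ) (Finset.mem_coe.2 (mem_supp.2 h)) rfl)
  simp at this

theorem lamF_apply (mu : Sd (M + 1) → ℝ) (σ : Sd (M + 1)) (τ : Sd M) :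
    lamF mu σ τ = mu (emb σ.1 τ) := rfl

theorem component (hc : Circuit v mu) (hσ : σ ∈ supp mu) (j : Fin (n + 1)) :
    ∑ τ, lamF mu σ τ * (sgn τ.2 * v (σ.1.succAbove τ.1) j) = -(mu σ * sgn σ.2 * v σ.1 j) := by
  have h := congrFun hc.2.2 j
  rw [sum_sides σ, opp_zero hc hσ] at h
  simp only [zero_smul, add_zero, Pi.add_apply, Finset.sum_apply, Pi.smul_apply, nrm, smul_eq_mul,
    Pi.zero_apply, emb] at h
  simp only [lamF_apply, emb]
  linarith

theorem coef_sum (hv : GenPos v) (hc : Circuit v mu) (hσ : σ ∈ supp mu) :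
    ∑ τ, lamF mu σ τ * (sgn τ.2 * fCoef v σ.1 (σ.1.succAbove τ.1)) = -(mu σ * sgn σ.2) := by
  have hp := pivot_ne hv σ.1
  have h := component hc hσ (pivot (v σ.1))
  apply mul_right_cancel₀ hp
  rw [Finset.sum_mul, neg_mul, ← h]
  exact Finset.sum_congr rfl fun τ _ => by rw [fCoef]; field_simp

theorem Lam_lamF (hv : GenPos v) (hc : Circuit v mu) (hσ : σ ∈ supp mu) (y : Sd (M + 1) → ℝ) :
    Lam (lamF mu σ) (fMap v σ y) = Lam mu y := by
  have e : ∀ τ, lamF mu σ τ * fMap v σ y τ = mu (emb σ.1 τ) * y (emb σ.1 τ)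
      - lamF mu σ τ * (sgn τ.2 * fCoef v σ.1 (σ.1.succAbove τ.1)) * (sgn σ.2 * y σ) := fun τ => by
    simp only [fMap, LinearMap.coe_mk, AddHom.coe_mk, lamF_apply, emb]; ring
  simp only [Lam, e, Finset.sum_sub_distrib, ← Finset.sum_mul, coef_sum hv hc hσ]
  rw [sum_sides σ (fun τ => mu τ * y τ), opp_zero hc hσ]
  linear_combination (mu σ * y σ) * sgn_mul_self σ.2

theorem map_supp (hc : Circuit v mu) (hσ : σ ∈ supp mu) :
    (supp (lamF mu σ)).map ⟨emb σ.1, emb_injective _⟩ = (supp mu).erase σ := by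
  ext τ
  rw [Finset.mem_map, Finset.mem_erase]
  constructor
  · rintro ⟨a, ha, rfl⟩
    exact ⟨fun h => Fin.succAbove_ne σ.1 a.1 (congrArg Prod.fst h), mem_supp.2 (mem_supp.1 ha :)⟩
  · rintro ⟨hne, hτ⟩
    rcases side_cases σ τ with rfl | rfl | ⟨a, rfl⟩
    · exact absurd rfl hne
    · exact absurd (opp_zero hc hσ) (mem_supp.1 hτ)
    · exact ⟨a, mem_supp.2 (mem_supp.1 hτ :), rfl⟩

theorem card_posF (hc : Circuit v mu) (hσ : σ ∈ supp mu) :
    (posSet (lamF mu σ)).card + (if 0 < mu σ then 1 else 0) = (posSet mu).card := by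
  have e : (posSet (lamF mu σ)).map ⟨emb σ.1, emb_injective _⟩ = (posSet mu).erase σ := by
    ext τ
    rw [Finset.mem_map, Finset.mem_erase]
    constructor
    · rintro ⟨a, ha, rfl⟩
      exact ⟨fun h => Fin.succAbove_ne σ.1 a.1 (congrArg Prod.fst h), mem_posSet.2 (mem_posSet.1 ha :)⟩
    · rintro ⟨hne, hτ⟩
      rcases side_cases σ τ with rfl | rfl | ⟨a, rfl⟩
      · exact absurd rfl hne
      · exact absurd (opp_zero hc hσ) (mem_posSet.1 hτ).ne'
      · exact ⟨a, mem_posSet.2 (mem_posSet.1 hτ :), rfl⟩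
  rw [← Finset.card_map ⟨emb σ.1, emb_injective _⟩, e]
  split_ifs with h
  · rw [Finset.card_erase_add_one (mem_posSet.2 h)]
  · rw [Finset.erase_eq_of_notMem (fun h' => h (mem_posSet.1 h')), add_zero]

theorem card_negF (hc : Circuit v mu) (hσ : σ ∈ supp mu) :
    (posSet (-lamF mu σ)).card + (if mu σ < 0 then 1 else 0) = (posSet (-mu)).card := by
  have hc' : Circuit v (-mu) := ⟨by rw [supp_neg]; exact hc.1, by rw [supp_neg]; exact hc.2.1,
    by simp [hc.2.2]⟩
  have h := card_posF hc' (σ := σ) (by rwa [supp_neg])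
  simpa [show lamF (-mu) σ = -lamF mu σ from rfl] using h

theorem circuit_lamF (hv : GenPos v) (hc : Circuit v mu) (hσ : σ ∈ supp mu) :
    Circuit (fNormals v σ.1) (lamF mu σ) := by
  refine ⟨?_, ?_, ?_⟩
  · rw [← Finset.card_map ⟨emb σ.1, emb_injective _⟩, map_supp hc hσ,
      Finset.card_erase_of_mem hσ, hc.1]; omega
  · intro a ha a' ha' h
    exact emb_injective σ.1 (hc.2.1 (mem_supp.2 (mem_supp.1 (Finset.mem_coe.1 ha) :))
      (mem_supp.2 (mem_supp.1 (Finset.mem_coe.1 ha') :)) (congrArg (σ.1.succAbove) h))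
  · funext k
    simp only [Finset.sum_apply, Pi.smul_apply, nrm, fNormals, smul_eq_mul, Pi.zero_apply, mul_sub,
      Finset.sum_sub_distrib, component hc hσ]
    rw [sub_eq_zero]
    calc -(mu σ * sgn σ.2 * v σ.1 ((pivot (v σ.1)).succAbove k))
        = (-(mu σ * sgn σ.2)) * v σ.1 ((pivot (v σ.1)).succAbove k) := by ring
      _ = _ := by rw [← coef_sum hv hc hσ, Finset.sum_mul]; exact Finset.sum_congr rfl fun τ _ => by ring

theorem facet_wall (hv : GenPos v) (hw : Wall v c mu) (hσ : σ ∈ supp mu) :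
    Wall (fNormals v σ.1) (fMap v σ c) (lamF mu σ) := by
  obtain ⟨hwid, hc, ⟨x, hx, hxt⟩, hall⟩ := hw
  refine ⟨width_fMap hwid, circuit_lamF hv hc hσ, ?_, fun z hz => ?_⟩
  · let z : Vec n := fun k => x ((pivot (v σ.1)).succAbove k)
    have hxl : x ⬝ᵥ v σ.1 = sgn σ.2 * c σ := by
      rw [← mem_tight.1 (hxt ▸ hσ : σ ∈ tight v c x), dot_nrm, ← mul_assoc, sgn_mul_self, one_mul]
    have hl : liftF v σ c z = x := by
      funext j
      rcases Fin.eq_self_or_eq_succAbove (pivot (v σ.1)) j with rfl | ⟨k, rfl⟩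
      · rw [liftF, lift, Fin.insertNth_apply_same, div_eq_iff (pivot_ne hv σ.1), ← hxl, dotProduct,
          Fin.sum_univ_succAbove _ (pivot (v σ.1))]
        simp only [z]; ring
      · rw [liftF, lift, Fin.insertNth_apply_succAbove]
    refine ⟨z, fun τ => ?_, ?_⟩
    · have := liftF_emb (σ := σ) (c := c) (z := z) hv τ
      rw [hl] at this
      have := hx (emb σ.1 τ)
      linarith
    · have h := tight_liftF (σ := σ) (z := z) hv hwid
      rw [hl, hxt] at h
      apply Finset.map_injective ⟨emb σ.1, emb_injective _⟩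
      rw [map_supp hc hσ, h, Finset.erase_insert]
      rw [Finset.mem_map]
      rintro ⟨a, -, ha⟩
      exact Fin.succAbove_ne σ.1 a.1 (congrArg Prod.fst ha)
  · have hcard := card_tight_liftF (σ := σ) (z := z) hv hwid
    rcases hall _ (liftF_mem hv hwid hz) with h | h
    · left; omega
    · right
      rw [tight_liftF hv hwid] at h
      apply Finset.map_injective ⟨emb σ.1, emb_injective _⟩
      rw [map_supp hc hσ, ← h, Finset.erase_insert]
      rw [Finset.mem_map]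
      rintro ⟨a, -, ha⟩
      exact Fin.succAbove_ne σ.1 a.1 (congrArg Prod.fst ha)

theorem facet_off_wall (hv : GenPos v) (hw : Wall v c mu) (hσ : σ ∉ supp mu) :
    Simple (fNormals v σ.1) (fMap v σ c) := by
  refine ⟨width_fMap hw.1, fun z hz => ?_⟩
  have hcard := card_tight_liftF (σ := σ) (z := z) hv hw.1
  rcases hw.2.2.2 _ (liftF_mem hv hw.1 hz) with h | h
  · omega
  · exact absurd (h ▸ mem_tight.2 (liftF_self hv) : σ ∈ supp mu) hσ

end facets

end Vale.Agent.P227.LpN.Cells
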